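import Vale.Agent.P017.H766.StepR2

/-! Adding one prime to a squarefree number with the condition `R1`. -/

set_option autoImplicit false

namespace Vale.Agent.P017.H766

open Vale.Agent.P017.H390

theorem R1_half {d l q : ℕ} (hsf : Squarefree d) (hl : l.Prime) (hld : l ∣ d) (hq : q.Prime)
    (hqd : ¬ q ∣ d)
    (h1 : ∀ p : ℕ, p.Prime → p ∣ d → p ≠ l → IsSquare ((q : ℤ) : ZMod p))
    (h2 : ∀ p : ℕ, p.Prime → p ∣ d → p ≠ l → IsSquare ((p : ℤ) : ZMod q))
    (h3 : ¬ IsSquare ((l : ℤ) : ZMod q)) (hR : R1 d)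
    {m M : ℕ} (hab : m * M = d)
    (hA : ∀ p : ℕ, p.Prime → p ∣ M → IsSquare (((q * m : ℕ) : ℤ) : ZMod p))
    (hB : ∀ p : ℕ, p.Prime → p ∣ q * m → IsSquare ((M : ℤ) : ZMod p)) : M = 1 := by
  have hqF : Fact q.Prime := ⟨hq⟩
  have hMd : M ∣ d := ⟨m, by rw [← hab]; ring⟩
  have hM0 : M ≠ 0 := by rintro rfl; exact hsf.ne_zero (by rw [← hab, mul_zero])
  have hlM : ¬ l ∣ M := by
    rintro ⟨M', hM'⟩
    have hM'0 : M' ≠ 0 := by rintro rfl; exact hM0 (by rw [hM', mul_zero])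
    have hsq : IsSquare ((M' : ℕ) : ZMod q) := by
      refine isSquare_nat_of_primes _ hM'0 fun p hp hpb => ?_
      have hpd : p ∣ d := (hpb.trans ⟨l, by rw [hM']; ring⟩).trans hMd
      have h4 := h2 p hp hpd (by
        rintro rfl
        obtain ⟨c, hc⟩ := hpb
        have h5 : p * p ∣ d := dvd_trans ⟨c, by rw [hM', hc]; ring⟩ hMd
        exact hp.one_lt.ne' (Nat.isUnit_iff.1 (hsf p h5)))
      simpa using h4
    have hne : ((M' : ℕ) : ZMod q) ≠ 0 := by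
      intro h0
      have h4 := (ZMod.natCast_eq_zero_iff M' q).1 h0
      exact hqd ((h4.trans ⟨l, by rw [hM']; ring⟩).trans hMd)
    have h4 := hB q hq (dvd_mul_right _ _)
    apply h3
    have h5 : ((l : ℤ) : ZMod q) = ((M : ℤ) : ZMod q) / (M' : ZMod q) := by
      rw [eq_div_iff hne, hM']
      push_cast
      ring
    rw [h5]
    exact h4.div hsq
  have hla : l ∣ m := by
    have h4 : l ∣ m * M := by rw [hab]; exact hld
    exact (hl.dvd_mul.1 h4).resolve_right hlM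
  have H1 : ∀ p : ℕ, p.Prime → p ∣ M → IsSquare ((m : ℤ) : ZMod p) := by
    intro p hp hpb
    have hpF : Fact p.Prime := ⟨hp⟩
    have hpd : p ∣ d := hpb.trans hMd
    have hpl : p ≠ l := by rintro rfl; exact hlM hpb
    have h5 := h1 p hp hpd hpl
    have hne : ((q : ℤ) : ZMod p) ≠ 0 := by
      intro h0
      have h6 := (ZMod.intCast_zmod_eq_zero_iff_dvd (q : ℤ) p).1 h0
      have h7 : p ∣ q := by exact_mod_cast h6
      rw [(Nat.prime_dvd_prime_iff_eq hp hq).1 h7] at hpd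
      exact hqd hpd
    have h6 := hA p hp hpb
    have h7 : ((m : ℤ) : ZMod p) = (((q * m : ℕ) : ℤ) : ZMod p) / ((q : ℤ) : ZMod p) := by
      rw [eq_div_iff hne]
      push_cast
      ring
    rw [h7]
    exact h6.div h5
  have H2 : ∀ p : ℕ, p.Prime → p ∣ m → IsSquare ((M : ℤ) : ZMod p) :=
    fun p hp hpa => hB p hp (hpa.mul_left _)
  rcases hR m M hab H1 H2 with h4 | h4
  · exfalso
    rw [h4] at hla
    exact hl.one_lt.ne' (Nat.dvd_one.1 hla)
  · exact h4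

/-- **one more prime.** -/
theorem R1_step {d l q : ℕ} (hsf : Squarefree d) (hl : l.Prime) (hld : l ∣ d) (hq : q.Prime)
    (hqd : ¬ q ∣ d)
    (h1 : ∀ p : ℕ, p.Prime → p ∣ d → p ≠ l → IsSquare ((q : ℤ) : ZMod p))
    (h2 : ∀ p : ℕ, p.Prime → p ∣ d → p ≠ l → IsSquare ((p : ℤ) : ZMod q))
    (h3 : ¬ IsSquare ((l : ℤ) : ZMod q)) (hR : R1 d) : R1 (d * q) := by
  intro m M hab hA hB
  have hq0 : q ≠ 0 := hq.ne_zero
  have hdvd : q ∣ m * M := ⟨d, by rw [hab]; ring⟩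
  have key : ∀ x y : ℕ, x * y = d * q →
      (∀ p : ℕ, p.Prime → p ∣ y → IsSquare ((x : ℤ) : ZMod p)) →
      (∀ p : ℕ, p.Prime → p ∣ x → IsSquare ((y : ℤ) : ZMod p)) → q ∣ x → y = 1 := by
    rintro x y hxy hX hY ⟨x', rfl⟩
    refine R1_half hsf hl hld hq hqd h1 h2 h3 hR (m := x') ?_ hX hY
    apply Nat.eq_of_mul_eq_mul_left hq.pos
    rw [← mul_assoc, hxy, mul_comm]
  rcases hq.dvd_mul.1 hdvd with h | h
  · exact Or.inr (key m M hab hA hB h)
  · exact Or.inl (key M m (by rw [mul_comm]; exact hab) hB hA h)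

end Vale.Agent.P017.H766
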