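import Vale.Agent.P017.H390.Comp

/-! Adding one prime to a squarefree number with Rédei's condition `R2`. -/

set_option autoImplicit false

namespace Vale.Agent.P017.H766

open Vale.Agent.P017.H390

theorem isSquare_nat_of_primes {R : Type*} [CommRing R] (n : ℕ) (hn : n ≠ 0)
    (h : ∀ p : ℕ, p.Prime → p ∣ n → IsSquare ((p : ℕ) : R)) : IsSquare ((n : ℕ) : R) := by
  induction n using induction_on_primes with
  | zero => exact absurd rfl hn
  | one => exact ⟨1, by simp⟩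
  | prime_mul p n hp ih =>
    rw [Nat.cast_mul]
    refine (h p hp (dvd_mul_right p n)).mul (ih (right_ne_zero_of_mul hn) ?_)
    exact fun r hr hrn => h r hr (hrn.mul_left p)

theorem isSquare_int_of_primes {q : ℕ} [Fact q.Prime] (hq4 : q % 4 = 1) (b : ℤ) (hb : b ≠ 0)
    (h : ∀ p : ℕ, p.Prime → (p : ℤ) ∣ b → IsSquare ((p : ℤ) : ZMod q)) :
    IsSquare ((b : ℤ) : ZMod q) := by
  have h1 : IsSquare ((b.natAbs : ℕ) : ZMod q) := by
    refine isSquare_nat_of_primes _ (Int.natAbs_ne_zero.2 hb) fun p hp hpb => ?_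
    have := h p hp (Int.natCast_dvd.2 hpb)
    simpa using this
  have h2 : IsSquare (-1 : ZMod q) := ZMod.exists_sq_eq_neg_one_iff.2 (by omega)
  rcases Int.natAbs_eq b with h3 | h3
  · rw [h3, Int.cast_natCast]; exact h1
  · rw [h3, Int.cast_neg, Int.cast_natCast, ← neg_one_mul]; exact h2.mul h1

theorem R2_half {d l q : ℕ} (hsf : Squarefree d) (hl : l.Prime) (hld : l ∣ d) (hq : q.Prime)
    (hqd : ¬ q ∣ d)
    (h1 : ∀ p : ℕ, p.Prime → p ∣ d → p ≠ l → IsSquare ((q : ℤ) : ZMod p))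
    (h2 : ∀ p : ℕ, p.Prime → p ∣ d → p ≠ l → IsSquare ((p : ℤ) : ZMod q))
    (h3 : ¬ IsSquare ((l : ℤ) : ZMod q)) (hq4 : q % 4 = 1) (hR : R2 d)
    {a' b : ℤ} (hab : a' * b = -d) (ha : a' % 4 = 1) (hb : b % 4 = 1)
    (hA : ∀ p : ℕ, p.Prime → (p : ℤ) ∣ b → IsSquare ((q * a' : ℤ) : ZMod p))
    (hB : ∀ p : ℕ, p.Prime → (p : ℤ) ∣ q * a' → IsSquare (b : ZMod p)) : b = 1 := by
  have hqF : Fact q.Prime := ⟨hq⟩
  have hd0 : (d : ℤ) ≠ 0 := by exact_mod_cast hsf.ne_zero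
  have hbd : b ∣ d := by
    have : b ∣ -(d : ℤ) := ⟨a', by rw [← hab]; ring⟩
    exact (dvd_neg).1 this
  have had : a' ∣ d := by
    have : a' ∣ -(d : ℤ) := ⟨b, hab.symm⟩
    exact (dvd_neg).1 this
  have hb0 : b ≠ 0 := by rintro rfl; norm_num at hb
  -- `l` does not divide `b`
  have hlb : ¬ (l : ℤ) ∣ b := by
    rintro ⟨b', hb'⟩
    have hb'0 : b' ≠ 0 := by rintro rfl; exact hb0 (by rw [hb', mul_zero])
    have hsq : IsSquare ((b' : ℤ) : ZMod q) := by
      refine isSquare_int_of_primes hq4 b' hb'0 fun p hp hpb => ?_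
      have hpd : (p : ℤ) ∣ d := (hpb.trans ⟨l, by rw [hb']; ring⟩).trans hbd
      refine h2 p hp (by exact_mod_cast hpd) ?_
      rintro rfl
      have h4 : (p : ℤ) * p ∣ d := by
        obtain ⟨c, hc⟩ := hpb
        refine dvd_trans ?_ hbd
        exact ⟨c, by rw [hb', hc]; ring⟩
      have h5 : p * p ∣ d := by exact_mod_cast h4
      exact hp.one_lt.ne' (Nat.isUnit_iff.1 (hsf p h5))
    have hne : ((b' : ℤ) : ZMod q) ≠ 0 := by
      intro h0
      have h4 := (ZMod.intCast_zmod_eq_zero_iff_dvd b' q).1 h0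
      have h5 : (q : ℤ) ∣ d := (h4.trans ⟨l, by rw [hb']; ring⟩).trans hbd
      exact hqd (by exact_mod_cast h5)
    have h4 := hB q hq (dvd_mul_right _ _)
    apply h3
    have h5 : ((l : ℤ) : ZMod q) = (b : ZMod q) / (b' : ZMod q) := by
      rw [eq_div_iff hne, hb']
      push_cast
      ring
    rw [h5]
    exact h4.div hsq
  have hla : (l : ℤ) ∣ a' := by
    have h4 : (l : ℤ) ∣ a' * b := by
      rw [hab]; exact (dvd_neg).2 (by exact_mod_cast hld)
    exact (Int.Prime.dvd_mul' hl h4).resolve_right hlb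
  have H1 : ∀ p : ℕ, p.Prime → (p : ℤ) ∣ b → IsSquare (a' : ZMod p) := by
    intro p hp hpb
    have hpF : Fact p.Prime := ⟨hp⟩
    have hpd : p ∣ d := by exact_mod_cast hpb.trans hbd
    have hpl : p ≠ l := by rintro rfl; exact hlb hpb
    have h5 := h1 p hp hpd hpl
    have hne : ((q : ℤ) : ZMod p) ≠ 0 := by
      intro h0
      have h6 := (ZMod.intCast_zmod_eq_zero_iff_dvd (q : ℤ) p).1 h0
      have h7 : p ∣ q := by exact_mod_cast h6
      rw [(Nat.prime_dvd_prime_iff_eq hp hq).1 h7] at hpd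
      exact hqd hpd
    have h6 := hA p hp hpb
    have h7 : ((a' : ℤ) : ZMod p) = ((q * a' : ℤ) : ZMod p) / ((q : ℤ) : ZMod p) := by
      rw [eq_div_iff hne]
      push_cast
      ring
    rw [h7]
    exact h6.div h5
  have H2 : ∀ p : ℕ, p.Prime → (p : ℤ) ∣ a' → IsSquare (b : ZMod p) :=
    fun p hp hpa => hB p hp (hpa.mul_left _)
  rcases hR a' b hab ha hb H1 H2 with h4 | h4
  · exfalso
    rw [h4] at hla
    have h5 : l ∣ 1 := by exact_mod_cast hla
    exact hl.one_lt.ne' (Nat.dvd_one.1 h5)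
  · exact h4

/-- **one more prime.** -/
theorem R2_step {d l q : ℕ} (hsf : Squarefree d) (hl : l.Prime) (hld : l ∣ d) (hq : q.Prime)
    (hqd : ¬ q ∣ d)
    (h1 : ∀ p : ℕ, p.Prime → p ∣ d → p ≠ l → IsSquare ((q : ℤ) : ZMod p))
    (h2 : ∀ p : ℕ, p.Prime → p ∣ d → p ≠ l → IsSquare ((p : ℤ) : ZMod q))
    (h3 : ¬ IsSquare ((l : ℤ) : ZMod q)) (hq4 : q % 4 = 1) (hR : R2 d) : R2 (d * q) := by
  intro a b hab ha hb hA hB
  have hq0 : (q : ℤ) ≠ 0 := by exact_mod_cast hq.ne_zero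
  have hab' : a * b = -((d : ℤ) * q) := by rw [hab]; push_cast; ring
  have hdvd : (q : ℤ) ∣ a * b := ⟨-d, by rw [hab']; ring⟩
  have key : ∀ x y : ℤ, x * y = -((d : ℤ) * q) → x % 4 = 1 → y % 4 = 1 →
      (∀ p : ℕ, p.Prime → (p : ℤ) ∣ y → IsSquare (x : ZMod p)) →
      (∀ p : ℕ, p.Prime → (p : ℤ) ∣ x → IsSquare (y : ZMod p)) → (q : ℤ) ∣ x → y = 1 := by
    rintro x y hxy hx hy hX hY ⟨x', rfl⟩
    have hx' : x' % 4 = 1 := by
      rw [Int.mul_emod, show (q : ℤ) % 4 = 1 by omega] at hx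
      omega
    refine R2_half hsf hl hld hq hqd h1 h2 h3 hq4 hR (a' := x') ?_ hx' hy hX hY
    apply mul_left_cancel₀ hq0
    linear_combination hxy
  rcases Int.Prime.dvd_mul' hq hdvd with h | h
  · exact Or.inr (key a b hab' ha hb hA hB h)
  · exact Or.inl (key b a (by rw [mul_comm]; exact hab') hb ha hB hA h)

end Vale.Agent.P017.H766
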