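import Mathlib

/-!
# Legendre's theorem for `z² = a x² + b y²`

`legendre`: if `a, b > 1`, `ab` is squarefree, `a` is a square modulo every prime dividing `b`
and `b` is a square modulo every prime dividing `a`, then `z² = a x² + b y²` has an integer
solution with `z ≠ 0`.
-/

namespace P017.H766

/-- A square modulo every prime divisor of a squarefree number is a square modulo the number. -/
theorem sq_mod_squarefree (c : ℤ) :
    ∀ n : ℕ, Squarefree n → (∀ q : ℕ, q.Prime → q ∣ n → ∃ t : ℤ, (q : ℤ) ∣ t ^ 2 - c) →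
      ∃ t : ℤ, (n : ℤ) ∣ t ^ 2 - c := by
  intro n
  induction n using Nat.strong_induction_on with
  | _ n ih =>
    intro hn h
    rcases eq_or_ne n 1 with rfl | h1
    · exact ⟨0, by simp⟩
    · have hp := Nat.minFac_prime h1
      obtain ⟨m, hm⟩ := Nat.minFac_dvd n
      have hsq : Squarefree (n.minFac * m) := hm ▸ hn
      have hcop : Nat.Coprime n.minFac m := Nat.coprime_of_squarefree_mul hsq
      have hm0 : m ≠ 0 := by
        rintro rfl
        rw [mul_zero] at hm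
        rw [hm] at hn
        exact not_squarefree_zero hn
      have hmn : m < n := by
        have h2 := hp.two_le
        calc m < 2 * m := by omega
          _ ≤ n.minFac * m := Nat.mul_le_mul_right m h2
          _ = n := hm.symm
      have hmsq : Squarefree m := hsq.squarefree_of_dvd (Dvd.intro_left _ rfl)
      obtain ⟨tm, htm⟩ := ih m hmn hmsq
        (fun q hq hqm => h q hq (hqm.trans ⟨n.minFac, by rw [mul_comm]; exact hm⟩))
      obtain ⟨tp, htp⟩ := h n.minFac hp (Nat.minFac_dvd n)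
      have hcz : IsCoprime (n.minFac : ℤ) (m : ℤ) := Nat.isCoprime_iff_coprime.mpr hcop
      obtain ⟨u, v, huv⟩ := hcz
      refine ⟨tp * (v * m) + tm * (u * n.minFac), ?_⟩
      have hc' : IsCoprime (n.minFac : ℤ) (m : ℤ) := ⟨u, v, huv⟩
      have e1 : (n.minFac : ℤ) ∣ (tp * (v * m) + tm * (u * n.minFac)) ^ 2 - c := by
        have : (tp * (v * m) + tm * (u * n.minFac)) ^ 2 - c
            = (tp ^ 2 - c) + n.minFac * ((tm - tp) * u *
              ((tp * (v * m) + tm * (u * n.minFac)) + tp)) := by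
          have hv : v * (m : ℤ) = 1 - u * n.minFac := by linarith
          rw [hv]; ring
        rw [this]
        exact dvd_add htp (Dvd.intro _ rfl)
      have e2 : (m : ℤ) ∣ (tp * (v * m) + tm * (u * n.minFac)) ^ 2 - c := by
        have : (tp * (v * m) + tm * (u * n.minFac)) ^ 2 - c
            = (tm ^ 2 - c) + m * ((tp - tm) * v *
              ((tp * (v * m) + tm * (u * n.minFac)) + tm)) := by
          have hv : u * (n.minFac : ℤ) = 1 - v * m := by linarith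
          rw [hv]; ring
        rw [this]
        exact dvd_add htm (Dvd.intro _ rfl)
      have e3 := hc'.mul_dvd e1 e2
      have e4 : (n : ℤ) = n.minFac * m := by exact_mod_cast hm
      rw [e4]
      exact e3

theorem sq_ne_of_squarefree {n : ℕ} (hn : Squarefree n) (h1 : 1 < n) (x : ℕ) : x ^ 2 ≠ n := by
  rintro rfl
  have : IsUnit x := hn x ⟨1, by ring⟩
  rw [Nat.isUnit_iff] at this
  subst this
  norm_num at h1

theorem exists_int_of_isSquare {q c : ℕ} (h : IsSquare ((c : ℕ) : ZMod q)) :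
    ∃ t : ℤ, (q : ℤ) ∣ t ^ 2 - c := by
  obtain ⟨r, hr⟩ := h
  obtain ⟨t, rfl⟩ := ZMod.intCast_surjective r
  refine ⟨t, ?_⟩
  rw [← ZMod.intCast_zmod_eq_zero_iff_dvd] 
  push_cast
  rw [hr]; ring

/-- **Legendre's theorem** for `z² = a x² + b y²` with `a, b > 1` and `ab` squarefree. -/
theorem legendre {a b : ℕ} (hs : Squarefree (a * b)) (ha1 : 1 < a) (hb1 : 1 < b)
    (h1 : ∀ q : ℕ, q.Prime → q ∣ b → IsSquare ((a : ℕ) : ZMod q))
    (h2 : ∀ q : ℕ, q.Prime → q ∣ a → IsSquare ((b : ℕ) : ZMod q)) :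
    ∃ x y z : ℤ, z ^ 2 = a * x ^ 2 + b * y ^ 2 ∧ z ≠ 0 := by
  have hsa : Squarefree a := hs.squarefree_of_dvd (Dvd.intro _ rfl)
  have hsb : Squarefree b := hs.squarefree_of_dvd (Dvd.intro_left _ rfl)
  have hcop : Nat.Coprime a b := Nat.coprime_of_squarefree_mul hs
  obtain ⟨α, hα⟩ := sq_mod_squarefree (a : ℤ) b hsb
    (fun q hq hqb => exists_int_of_isSquare (h1 q hq hqb))
  obtain ⟨β, hβ⟩ := sq_mod_squarefree (b : ℤ) a hsa
    (fun q hq hqa => exists_int_of_isSquare (h2 q hq hqa))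
  have : NeZero a := ⟨by omega⟩
  have : NeZero b := ⟨by omega⟩
  -- the box
  let s : Finset (ℕ × ℕ × ℕ) := (Finset.range (Nat.sqrt b + 1)) ×ˢ
    ((Finset.range (Nat.sqrt a + 1)) ×ˢ (Finset.range (Nat.sqrt (a * b) + 1)))
  let f : ℕ × ℕ × ℕ → ZMod b × ZMod a := fun p =>
    ((((p.2.2 : ℤ) - α * (p.1 : ℤ) : ℤ) : ZMod b), (((p.2.2 : ℤ) - β * (p.2.1 : ℤ) : ℤ) : ZMod a))
  have hcard : (Finset.univ : Finset (ZMod b × ZMod a)).card < s.card := by
    have e1 : (Finset.univ : Finset (ZMod b × ZMod a)).card = b * a := by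
      rw [Finset.card_univ, Fintype.card_prod, ZMod.card, ZMod.card]
    have e2 : s.card = (Nat.sqrt b + 1) * ((Nat.sqrt a + 1) * (Nat.sqrt (a * b) + 1)) := by
      simp [s, Finset.card_product]
    rw [e1, e2]
    have l1 := Nat.lt_succ_sqrt b
    have l2 := Nat.lt_succ_sqrt a
    have l3 := Nat.lt_succ_sqrt (a * b)
    rw [Nat.succ_eq_add_one] at l1 l2 l3
    by_contra hcon
    push Not at hcon
    have k1 : ((Nat.sqrt b + 1) * ((Nat.sqrt a + 1) * (Nat.sqrt (a * b) + 1))) *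
        ((Nat.sqrt b + 1) * ((Nat.sqrt a + 1) * (Nat.sqrt (a * b) + 1))) ≤ (b * a) * (b * a) :=
      Nat.mul_le_mul hcon hcon
    have k2 : b * (a * (a * b)) < ((Nat.sqrt b + 1) * (Nat.sqrt b + 1)) *
        (((Nat.sqrt a + 1) * (Nat.sqrt a + 1)) *
          ((Nat.sqrt (a * b) + 1) * (Nat.sqrt (a * b) + 1))) := by
      apply Nat.mul_lt_mul_of_lt_of_lt l1
      exact Nat.mul_lt_mul_of_lt_of_lt l2 l3
    have k3 : ((Nat.sqrt b + 1) * (Nat.sqrt b + 1)) *
        (((Nat.sqrt a + 1) * (Nat.sqrt a + 1)) *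
          ((Nat.sqrt (a * b) + 1) * (Nat.sqrt (a * b) + 1))) =
        ((Nat.sqrt b + 1) * ((Nat.sqrt a + 1) * (Nat.sqrt (a * b) + 1))) *
        ((Nat.sqrt b + 1) * ((Nat.sqrt a + 1) * (Nat.sqrt (a * b) + 1))) := by ring
    have k4 : b * (a * (a * b)) = (b * a) * (b * a) := by ring
    rw [k3, k4] at k2
    exact absurd k1 (not_le.mpr k2)
  obtain ⟨p, hp, p', hp', hne, hf⟩ :=
    Finset.exists_ne_map_eq_of_card_lt_of_maps_to hcard (f := f) (fun _ _ => Finset.mem_univ _)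
  obtain ⟨x1, y1, z1⟩ := p
  obtain ⟨x2, y2, z2⟩ := p'
  simp only [s, Finset.mem_product, Finset.mem_range] at hp hp'
  simp only [f, Prod.mk.injEq] at hf
  obtain ⟨hx1, hy1, hz1⟩ := hp
  obtain ⟨hx2, hy2, hz2⟩ := hp'
  obtain ⟨hf1, hf2⟩ := hf
  -- the difference
  have sqlt : ∀ (n : ℕ), Squarefree n → 1 < n → ∀ u v : ℕ, u < Nat.sqrt n + 1 →
      v < Nat.sqrt n + 1 → ((u : ℤ) - v) ^ 2 < n := by
    intro n hn h1n u v hu hv
    have key : ((u : ℤ) - v).natAbs ≤ Nat.sqrt n := by omega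
    have k1 : ((u : ℤ) - v).natAbs ^ 2 ≤ n := by
      calc ((u : ℤ) - v).natAbs ^ 2 ≤ (Nat.sqrt n) ^ 2 := Nat.pow_le_pow_left key 2
        _ ≤ n := Nat.sqrt_le' n
    have k2 : ((u : ℤ) - v).natAbs ^ 2 < n :=
      lt_of_le_of_ne k1 (sq_ne_of_squarefree hn h1n _)
    have k3 : ((((u : ℤ) - v).natAbs ^ 2 : ℕ) : ℤ) < (n : ℤ) := by exact_mod_cast k2
    have k4 : ((((u : ℤ) - v).natAbs ^ 2 : ℕ) : ℤ) = ((u : ℤ) - v) ^ 2 := by
      push_cast
      rw [sq_abs]
    rw [k4] at k3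
    exact k3
  set x : ℤ := (x1 : ℤ) - x2 with hx
  set y : ℤ := (y1 : ℤ) - y2 with hy
  set z : ℤ := (z1 : ℤ) - z2 with hz
  have bx : x ^ 2 < b := sqlt b hsb hb1 x1 x2 hx1 hx2
  have by' : y ^ 2 < a := sqlt a hsa ha1 y1 y2 hy1 hy2
  have hab1 : 1 < a * b := by nlinarith
  have bz : z ^ 2 < ((a * b : ℕ) : ℤ) := sqlt (a * b) hs hab1 z1 z2 hz1 hz2
  push_cast at bz
  have c1 : (b : ℤ) ∣ z - α * x := by
    rw [← ZMod.intCast_zmod_eq_zero_iff_dvd]
    have : z - α * x = ((z1 : ℤ) - α * x1) - ((z2 : ℤ) - α * x2) := by rw [hz, hx]; ring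
    rw [this, Int.cast_sub, hf1, sub_self]
  have c2 : (a : ℤ) ∣ z - β * y := by
    rw [← ZMod.intCast_zmod_eq_zero_iff_dvd]
    have : z - β * y = ((z1 : ℤ) - β * y1) - ((z2 : ℤ) - β * y2) := by rw [hz, hy]; ring
    rw [this, Int.cast_sub, hf2, sub_self]
  have d1 : (b : ℤ) ∣ z ^ 2 - a * x ^ 2 - b * y ^ 2 := by
    have : z ^ 2 - a * x ^ 2 - b * y ^ 2 =
        (z - α * x) * (z + α * x) + (α ^ 2 - a) * x ^ 2 - b * y ^ 2 := by ring
    rw [this]
    exact dvd_sub (dvd_add (Dvd.dvd.mul_right c1 _) (Dvd.dvd.mul_right hα _)) (Dvd.intro _ rfl)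
  have d2 : (a : ℤ) ∣ z ^ 2 - a * x ^ 2 - b * y ^ 2 := by
    have : z ^ 2 - a * x ^ 2 - b * y ^ 2 =
        (z - β * y) * (z + β * y) + (β ^ 2 - b) * y ^ 2 - a * x ^ 2 := by ring
    rw [this]
    exact dvd_sub (dvd_add (Dvd.dvd.mul_right c2 _) (Dvd.dvd.mul_right hβ _)) (Dvd.intro _ rfl)
  have hcz : IsCoprime (a : ℤ) (b : ℤ) := Nat.isCoprime_iff_coprime.mpr hcop
  obtain ⟨k, hk⟩ := hcz.mul_dvd d2 d1
  have ha0 : (0 : ℤ) < a := by exact_mod_cast (by omega : 0 < a)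
  have hb0 : (0 : ℤ) < b := by exact_mod_cast (by omega : 0 < b)
  have hab0 : (0 : ℤ) < (a : ℤ) * b := mul_pos ha0 hb0
  have q1 : (a : ℤ) * x ^ 2 < a * b := mul_lt_mul_of_pos_left bx ha0
  have q2 : (b : ℤ) * y ^ 2 < a * b := by
    rw [mul_comm (a : ℤ) b]
    exact mul_lt_mul_of_pos_left by' hb0
  have q3 : (0 : ℤ) ≤ a * x ^ 2 := by positivity
  have q4 : (0 : ℤ) ≤ b * y ^ 2 := by positivity
  have q5 : (0 : ℤ) ≤ z ^ 2 := by positivity
  have hk1 : k < 1 := by
    by_contra hcon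
    push Not at hcon
    have : (a : ℤ) * b * 1 ≤ a * b * k := mul_le_mul_of_nonneg_left hcon hab0.le
    linarith
  have hk2 : -2 < k := by
    by_contra hcon
    push Not at hcon
    have : (a : ℤ) * b * k ≤ a * b * (-2) := mul_le_mul_of_nonneg_left hcon hab0.le
    linarith
  have hk3 : k = 0 ∨ k = -1 := by omega
  rcases hk3 with rfl | rfl
  · -- the value is zero
    refine ⟨x, y, z, by linarith, ?_⟩
    intro hz0
    have e : (a : ℤ) * x ^ 2 + b * y ^ 2 = 0 := by rw [hz0] at hk; linarith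
    have ex : (a : ℤ) * x ^ 2 = 0 := by linarith
    have ey : (b : ℤ) * y ^ 2 = 0 := by linarith
    have ex' : x = 0 := by
      rcases mul_eq_zero.mp ex with h | h
      · exact absurd h ha0.ne'
      · exact pow_eq_zero_iff (two_ne_zero) |>.mp h
    have ey' : y = 0 := by
      rcases mul_eq_zero.mp ey with h | h
      · exact absurd h hb0.ne'
      · exact pow_eq_zero_iff (two_ne_zero) |>.mp h
    apply hne
    have g1 : x1 = x2 := by omega
    have g2 : y1 = y2 := by omega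
    have g3 : z1 = z2 := by omega
    rw [g1, g2, g3]
  · -- the value is `-ab`
    refine ⟨x * z + b * y, y * z - a * x, z ^ 2 + a * b, ?_, ?_⟩
    · have e : (a : ℤ) * x ^ 2 + b * y ^ 2 = z ^ 2 + a * b := by linarith
      have : (a : ℤ) * (x * z + b * y) ^ 2 + b * (y * z - a * x) ^ 2
          = (z ^ 2 + a * b) * (a * x ^ 2 + b * y ^ 2) := by ring
      rw [this, e]; ring
    · positivity

end P017.H766
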