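import Vale.Agent.P017.H524.Local1

/-! The condition at `2` for `P = 2 p`, `p` odd. -/

namespace Vale.Agent.P017.H766

open Vale.Agent.P017.H524

variable {P b1 b2 b3 u1 u2 u3 m e : ℤ}

theorem odd_sq {x : ℤ} (h : ¬ (2 : ℤ) ∣ x) : ∃ k, x ^ 2 = 8 * k + 1 := by
  obtain ⟨y, hy⟩ : ∃ y, x = 2 * y + 1 := ⟨x / 2, by omega⟩
  obtain ⟨z, hz⟩ : ∃ z, y * (y + 1) = 2 * z := by
    obtain ⟨z, hz⟩ := Int.even_mul_succ_self y
    exact ⟨z, by rw [hz]; ring⟩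
  refine ⟨z, ?_⟩
  rw [hy]
  linear_combination 4 * hz

theorem odd_mul {x y : ℤ} (hx : ¬ (2 : ℤ) ∣ x) (hy : ¬ (2 : ℤ) ∣ y) : ¬ (2 : ℤ) ∣ x * y := by
  intro h
  rcases int_prime2.dvd_or_dvd h with h | h
  · exact hx h
  · exact hy h

theorem ev_of_mul_sq {b u : ℤ} (hb : ¬ (2 : ℤ) ∣ b) (h : (2 : ℤ) ∣ b * u ^ 2) : (2 : ℤ) ∣ u := by
  rcases int_prime2.dvd_or_dvd h with h | h
  · exact absurd h hb
  · exact int_prime2.dvd_of_dvd_pow h

theorem L2even {p : ℤ} (hP : P = 2 * p) (hp : ¬ (2 : ℤ) ∣ p) (d : Dat P b1 b2 b3 u1 u2 u3 m e) :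
    b1 % 8 = 1 ∨ ∃ c, b1 = 2 * c ∧ (c + p) % 8 = 0 := by
  have h2 := d.h2
  have h3 := d.h3
  rw [hP] at h2 h3
  by_cases hb1 : (2 : ℤ) ∣ b1
  · -- `b1` even
    right
    have hm : ¬ (2 : ℤ) ∣ m := cop2 d (Dvd.dvd.mul_right hb1 _)
    obtain ⟨c, hc⟩ := hb1
    have s1 := d.s1
    rw [hc] at s1
    have hcodd : ¬ (2 : ℤ) ∣ c := sqf_not int_prime2 s1
    refine ⟨c, hc, ?_⟩
    rw [hc] at h2 h3
    obtain ⟨k, hk⟩ := odd_sq hm
    have hpm : ¬ (2 : ℤ) ∣ p * m ^ 2 := odd_mul hp (fun h => hm (int_prime2.dvd_of_dvd_pow h))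
    -- `b2 u2 ^ 2`, `b3 u3 ^ 2` are even
    rcases prime_dvd_other d.s1 d.he Nat.prime_two (by
      rw [hc]; exact ⟨c, by push_cast; ring⟩) with hb2 | hb3
    · -- b2 even
      have hb2' : (2 : ℤ) ∣ b2 := by exact_mod_cast hb2
      obtain ⟨c2, hc2⟩ := hb2'
      have s2 := d.s2
      rw [hc2] at s2
      have hc2odd : ¬ (2 : ℤ) ∣ c2 := sqf_not int_prime2 s2
      have hb3odd : ¬ (2 : ℤ) ∣ b3 := by
        rintro ⟨c3, hc3⟩
        have s3 := d.s3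
        rw [hc3] at s3
        have hc3odd : ¬ (2 : ℤ) ∣ c3 := sqf_not int_prime2 s3
        have he := d.he
        rw [hc, hc2, hc3] at he
        have he2 : (2 : ℤ) ∣ e := int_prime2.dvd_of_dvd_pow (n := 2) ⟨4 * (c * c2 * c3), by
          rw [← he]; ring⟩
        obtain ⟨f, rfl⟩ := he2
        have hf : 2 * (c * c2 * c3) = f ^ 2 := by linarith
        obtain ⟨g, rfl⟩ : (2 : ℤ) ∣ f := int_prime2.dvd_of_dvd_pow (n := 2) ⟨_, hf.symm⟩
        exact odd_mul (odd_mul hcodd hc2odd) hc3odd ⟨g ^ 2, by linarith⟩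
      rw [hc2] at h2
      have e2 : c2 * u2 ^ 2 = c * u1 ^ 2 + p * m ^ 2 := by linarith
      obtain ⟨w3, rfl⟩ : (2 : ℤ) ∣ u3 := ev_of_mul_sq hb3odd ⟨c * u1 ^ 2 + 81 * (p * m ^ 2), by
        rw [h3]; ring⟩
      have e3 : 2 * (b3 * w3 ^ 2) = c * u1 ^ 2 + 81 * (p * m ^ 2) := by linarith
      have hu1 : ¬ (2 : ℤ) ∣ u1 := by
        rintro ⟨t, rfl⟩
        apply hpm
        refine ⟨b3 * w3 ^ 2 - 2 * c * t ^ 2 - 40 * (p * m ^ 2), ?_⟩
        linarith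
      obtain ⟨l, hl⟩ := odd_sq hu1
      obtain ⟨v, rfl⟩ : (2 : ℤ) ∣ u2 := by
        apply ev_of_mul_sq hc2odd
        refine ⟨b3 * w3 ^ 2 - 40 * (p * m ^ 2), ?_⟩
        linarith
      have e4 : b3 * w3 ^ 2 = 2 * (c2 * v ^ 2) + 40 * (p * m ^ 2) := by linarith
      obtain ⟨t, rfl⟩ : (2 : ℤ) ∣ w3 := ev_of_mul_sq hb3odd
        ⟨c2 * v ^ 2 + 20 * (p * m ^ 2), by rw [e4]; ring⟩
      have e5 : 2 * (b3 * t ^ 2) = c2 * v ^ 2 + 20 * (p * m ^ 2) := by linarith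
      obtain ⟨s, rfl⟩ : (2 : ℤ) ∣ v := by
        apply ev_of_mul_sq hc2odd
        refine ⟨b3 * t ^ 2 - 10 * (p * m ^ 2), ?_⟩
        linarith
      have : (8 : ℤ) ∣ c + p := by
        refine ⟨2 * c2 * s ^ 2 - c * l - p * k, ?_⟩
        rw [hk, hl] at e2
        linear_combination -e2
      omega
    · -- b3 even
      have hb3' : (2 : ℤ) ∣ b3 := by exact_mod_cast hb3
      obtain ⟨c3, hc3⟩ := hb3'
      have s3 := d.s3
      rw [hc3] at s3
      have hc3odd : ¬ (2 : ℤ) ∣ c3 := sqf_not int_prime2 s3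
      have hb2odd : ¬ (2 : ℤ) ∣ b2 := by
        rintro ⟨c2, hc2⟩
        have s2 := d.s2
        rw [hc2] at s2
        have hc2odd : ¬ (2 : ℤ) ∣ c2 := sqf_not int_prime2 s2
        have he := d.he
        rw [hc, hc2, hc3] at he
        have he2 : (2 : ℤ) ∣ e := int_prime2.dvd_of_dvd_pow (n := 2) ⟨4 * (c * c2 * c3), by
          rw [← he]; ring⟩
        obtain ⟨f, rfl⟩ := he2
        have hf : 2 * (c * c2 * c3) = f ^ 2 := by linarith
        obtain ⟨g, rfl⟩ : (2 : ℤ) ∣ f := int_prime2.dvd_of_dvd_pow (n := 2) ⟨_, hf.symm⟩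
        exact odd_mul (odd_mul hcodd hc2odd) hc3odd ⟨g ^ 2, by linarith⟩
      rw [hc3] at h3
      have e3 : c3 * u3 ^ 2 = c * u1 ^ 2 + 81 * (p * m ^ 2) := by linarith
      obtain ⟨w2, rfl⟩ : (2 : ℤ) ∣ u2 := ev_of_mul_sq hb2odd ⟨c * u1 ^ 2 + (p * m ^ 2), by
        rw [h2]; ring⟩
      have e2 : 2 * (b2 * w2 ^ 2) = c * u1 ^ 2 + (p * m ^ 2) := by linarith
      have hu1 : ¬ (2 : ℤ) ∣ u1 := by
        rintro ⟨t, rfl⟩
        apply hpm
        refine ⟨b2 * w2 ^ 2 - 2 * c * t ^ 2, ?_⟩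
        linarith
      obtain ⟨l, hl⟩ := odd_sq hu1
      obtain ⟨v, rfl⟩ : (2 : ℤ) ∣ u3 := by
        apply ev_of_mul_sq hc3odd
        refine ⟨b2 * w2 ^ 2 + 40 * (p * m ^ 2), ?_⟩
        linarith
      have e4 : b2 * w2 ^ 2 = 2 * (c3 * v ^ 2) - 40 * (p * m ^ 2) := by linarith
      obtain ⟨t, rfl⟩ : (2 : ℤ) ∣ w2 := ev_of_mul_sq hb2odd
        ⟨c3 * v ^ 2 - 20 * (p * m ^ 2), by rw [e4]; ring⟩
      have : (8 : ℤ) ∣ c + p := by
        refine ⟨b2 * t ^ 2 - c * l - p * k, ?_⟩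
        rw [hk, hl] at e2
        linear_combination -e2
      omega
  · -- `b1` odd
    left
    by_cases hb2 : (2 : ℤ) ∣ b2
    · -- all even: b2, b3 even
      have hb3 : (2 : ℤ) ∣ b3 := by
        have he' : b2 * b1 * b3 = e ^ 2 := by rw [← d.he]; ring
        rcases prime_dvd_other d.s2 he' Nat.prime_two (by exact_mod_cast hb2) with h | h
        · exact absurd (by exact_mod_cast h) hb1
        · exact_mod_cast h
      obtain ⟨c2, hc2⟩ := hb2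
      obtain ⟨c3, hc3⟩ := hb3
      have s2 := d.s2
      rw [hc2] at s2
      have hc2odd : ¬ (2 : ℤ) ∣ c2 := sqf_not int_prime2 s2
      have s3 := d.s3
      rw [hc3] at s3
      have hc3odd : ¬ (2 : ℤ) ∣ c3 := sqf_not int_prime2 s3
      have he := d.he
      rw [hc2, hc3] at he
      obtain ⟨f, hf'⟩ : (2 : ℤ) ∣ e := int_prime2.dvd_of_dvd_pow (n := 2)
        ⟨2 * (b1 * c2 * c3), by rw [← he]; ring⟩
      rw [hf'] at he
      have hf : b1 * c2 * c3 = f ^ 2 := by linarith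
      have hfodd : ¬ (2 : ℤ) ∣ f := by
        intro h
        apply odd_mul (odd_mul hb1 hc2odd) hc3odd
        rw [hf]
        exact dvd_pow h (by norm_num)
      rw [hc2] at h2
      rw [hc3] at h3
      obtain ⟨w, hw⟩ : (2 : ℤ) ∣ u1 := by
        apply ev_of_mul_sq hb1
        refine ⟨c2 * u2 ^ 2 - p * m ^ 2, ?_⟩
        linarith
      have hm : ¬ (2 : ℤ) ∣ m := cop2 d (by rw [hw]; exact ⟨b1 * (2 * w ^ 2), by ring⟩)
      have hpm : ¬ (2 : ℤ) ∣ p * m ^ 2 := odd_mul hp (fun h => hm (int_prime2.dvd_of_dvd_pow h))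
      rw [hw] at h2 h3
      have e2 : c2 * u2 ^ 2 = 2 * (b1 * w ^ 2) + p * m ^ 2 := by linarith
      have e3 : c3 * u3 ^ 2 = 2 * (b1 * w ^ 2) + 81 * (p * m ^ 2) := by linarith
      have hu2 : ¬ (2 : ℤ) ∣ u2 := by
        rintro ⟨t, ht⟩
        apply hpm
        refine ⟨2 * c2 * t ^ 2 - b1 * w ^ 2, ?_⟩
        rw [ht] at e2
        linarith
      have hu3 : ¬ (2 : ℤ) ∣ u3 := by
        rintro ⟨t, ht⟩
        apply hpm
        refine ⟨2 * c3 * t ^ 2 - b1 * w ^ 2 - 40 * (p * m ^ 2), ?_⟩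
        rw [ht] at e3
        linarith
      obtain ⟨k2, hk2⟩ := odd_sq hu2
      obtain ⟨k3, hk3⟩ := odd_sq hu3
      obtain ⟨kf, hkf⟩ := odd_sq hfodd
      obtain ⟨kc, hkc⟩ := odd_sq hc2odd
      have h8 : (8 : ℤ) ∣ c3 - c2 := by
        refine ⟨10 * (p * m ^ 2) - c3 * k3 + c2 * k2, ?_⟩
        rw [hk2] at e2
        rw [hk3] at e3
        linear_combination e3 - e2
      obtain ⟨r, hr⟩ := h8
      have h81 : (8 : ℤ) ∣ b1 - 1 := by
        refine ⟨kf - b1 * kc - b1 * c2 * r, ?_⟩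
        have h9 : c3 = c2 + 8 * r := by linarith
        rw [hkf, h9] at hf
        linear_combination hf - b1 * hkc
      omega
    · have hb3 : ¬ (2 : ℤ) ∣ b3 := by
        intro h
        have he' : b3 * b1 * b2 = e ^ 2 := by rw [← d.he]; ring
        rcases prime_dvd_other d.s3 he' Nat.prime_two (by exact_mod_cast h) with h | h
        · exact hb1 (by exact_mod_cast h)
        · exact hb2 (by exact_mod_cast h)
      have hfodd : ¬ (2 : ℤ) ∣ e := by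
        intro h
        apply odd_mul (odd_mul hb1 hb2) hb3
        rw [d.he]
        exact dvd_pow h (by norm_num)
      have hu1 : ¬ (2 : ℤ) ∣ u1 := by
        rintro ⟨w, hw⟩
        have hm : ¬ (2 : ℤ) ∣ m := cop2 d (by rw [hw]; exact ⟨b1 * (2 * w ^ 2), by ring⟩)
        have hpm : ¬ (2 : ℤ) ∣ p * m ^ 2 :=
          odd_mul hp (fun h => hm (int_prime2.dvd_of_dvd_pow h))
        rw [hw] at h2
        obtain ⟨v, hv⟩ : (2 : ℤ) ∣ u2 := by
          apply ev_of_mul_sq hb2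
          refine ⟨2 * (b1 * w ^ 2) + p * m ^ 2, ?_⟩
          rw [h2]; ring
        rw [hv] at h2
        apply hpm
        refine ⟨b2 * v ^ 2 - b1 * w ^ 2, ?_⟩
        linarith
      have hb1u1 : ¬ (2 : ℤ) ∣ b1 * u1 ^ 2 :=
        odd_mul hb1 (fun h => hu1 (int_prime2.dvd_of_dvd_pow h))
      have hu2 : ¬ (2 : ℤ) ∣ u2 := by
        rintro ⟨t, ht⟩
        apply hb1u1
        refine ⟨2 * (b2 * t ^ 2) - p * m ^ 2, ?_⟩
        rw [ht] at h2
        linarith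
      have hu3 : ¬ (2 : ℤ) ∣ u3 := by
        rintro ⟨t, ht⟩
        apply hb1u1
        refine ⟨2 * (b3 * t ^ 2) - 81 * (p * m ^ 2), ?_⟩
        rw [ht] at h3
        linarith
      obtain ⟨k2, hk2⟩ := odd_sq hu2
      obtain ⟨k3, hk3⟩ := odd_sq hu3
      obtain ⟨kf, hkf⟩ := odd_sq hfodd
      obtain ⟨kc, hkc⟩ := odd_sq hb2
      have h8 : (8 : ℤ) ∣ b3 - b2 := by
        refine ⟨20 * (p * m ^ 2) - b3 * k3 + b2 * k2, ?_⟩
        rw [hk2] at h2
        rw [hk3] at h3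
        linear_combination h3 - h2
      obtain ⟨r, hr⟩ := h8
      have h81 : (8 : ℤ) ∣ b1 - 1 := by
        refine ⟨kf - b1 * kc - b1 * b2 * r, ?_⟩
        have he := d.he
        have h9 : b3 = b2 + 8 * r := by linarith
        rw [hkf, h9] at he
        linear_combination he - b1 * hkc
      omega

end Vale.Agent.P017.H766
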