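import Vale.Agent.P017.H766.Prod

/-! Halving. -/

namespace Vale.Agent.P017.H766

open WeierstrassCurve

theorem halve_aux {F : Type*} [Field F] [DecidableEq F] (h2 : (2 : F) ≠ 0) {A B a b : F}
    (hA : A = -(a + b)) (hB : B = a * b) (ha : a ≠ 0) (hb : b ≠ 0) (hab : a ≠ b) {x y : F}
    (hn : (EF A B).toAffine.Nonsingular x y) {r s t : F} (hr : x = r ^ 2)
    (hs : x - a = s ^ 2) (ht : x - b = t ^ 2) (hy : y = -(r * s * t)) :
    ∃ Q, Affine.Point.some x y hn = 2 • Q := by
  have ea : a = r ^ 2 - s ^ 2 := by rw [← hr, ← hs]; ring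
  have eb : b = r ^ 2 - t ^ 2 := by rw [← hr, ← ht]; ring
  have n1 : r + s ≠ 0 := fun h => ha (by rw [ea]; linear_combination (r - s) * h)
  have n2 : r + t ≠ 0 := fun h => hb (by rw [eb]; linear_combination (r - t) * h)
  have n3 : s + t ≠ 0 := fun h => hab (by rw [ea, eb]; linear_combination (t - s) * h)
  have hX : EF A B = ⟨0, A, 0, B, 0⟩ := rfl
  subst hA hB
  have hns : (EF (-(a + b)) (a * b)).toAffine.Nonsingular (x + r * s + r * t + s * t)
      (-((r + s) * (r + t) * (s + t))) := by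
    rw [Affine.nonsingular_iff, Affine.equation_iff]
    refine ⟨?_, Or.inr ?_⟩
    · show (-((r + s) * (r + t) * (s + t))) ^ 2 + 0 * _ * _ + 0 * _ = _ ^ 3 + -(a + b) * _ ^ 2 +
        a * b * _ + 0
      rw [ea, eb, hr]
      ring
    · show -((r + s) * (r + t) * (s + t)) ≠ -(-((r + s) * (r + t) * (s + t))) -
        0 * (x + r * s + r * t + s * t) - 0
      intro h
      have h3 : 2 * ((r + s) * (r + t) * (s + t)) = 0 := by linear_combination -h
      exact mul_ne_zero h2 (mul_ne_zero (mul_ne_zero n1 n2) n3) h3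
  refine ⟨Affine.Point.some _ _ hns, ?_⟩
  have hne : -((r + s) * (r + t) * (s + t)) ≠ (EF (-(a + b)) (a * b)).toAffine.negY
      (x + r * s + r * t + s * t) (-((r + s) * (r + t) * (s + t))) := by
    unfold Affine.negY
    show -((r + s) * (r + t) * (s + t)) ≠ -(-((r + s) * (r + t) * (s + t))) -
        0 * (x + r * s + r * t + s * t) - 0
    intro h
    have h3 : 2 * ((r + s) * (r + t) * (s + t)) = 0 := by linear_combination -h
    exact mul_ne_zero h2 (mul_ne_zero (mul_ne_zero n1 n2) n3) h3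
  have hsl : (EF (-(a + b)) (a * b)).toAffine.slope (x + r * s + r * t + s * t)
      (x + r * s + r * t + s * t) (-((r + s) * (r + t) * (s + t)))
      (-((r + s) * (r + t) * (s + t))) = -(r + s + t) := by
    rw [Affine.slope_of_Y_ne rfl hne, div_eq_iff (sub_ne_zero.2 hne)]
    unfold Affine.negY
    show 3 * (x + r * s + r * t + s * t) ^ 2 + 2 * -(a + b) * (x + r * s + r * t + s * t) + a * b -
      0 * _ = -(r + s + t) * (_ - (-(-((r + s) * (r + t) * (s + t))) -
        0 * (x + r * s + r * t + s * t) - 0))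
    rw [ea, eb, hr]
    ring
  rw [two_nsmul, Affine.Point.add_self_of_Y_ne hne]
  simp only [Affine.Point.some.injEq]
  rw [hsl]
  constructor
  · show x = (-(r + s + t)) ^ 2 + 0 * _ - -(a + b) - _ - _
    rw [ea, eb, hr]
    ring
  · show y = _
    unfold Affine.addY Affine.negAddY Affine.addX Affine.negY
    show y = -(-(r + s + t) * ((-(r + s + t)) ^ 2 + 0 * -(r + s + t) - -(a + b) -
      (x + r * s + r * t + s * t) - (x + r * s + r * t + s * t) -
      (x + r * s + r * t + s * t)) + -((r + s) * (r + t) * (s + t))) - 0 * _ - 0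
    rw [ea, eb, hr, hy]
    ring

theorem halve {F : Type*} [Field F] [DecidableEq F] (h2 : (2 : F) ≠ 0) {A B a b : F}
    (hA : A = -(a + b)) (hB : B = a * b) (ha : a ≠ 0) (hb : b ≠ 0) (hab : a ≠ b) {x y : F}
    (hn : (EF A B).toAffine.Nonsingular x y) (h0 : IsSquare x) (ha' : IsSquare (x - a))
    (hb' : IsSquare (x - b)) : ∃ Q, Affine.Point.some x y hn = 2 • Q := by
  obtain ⟨r, hr⟩ := h0
  obtain ⟨s, hs⟩ := ha'
  obtain ⟨t, ht⟩ := hb'
  rw [← sq] at hr hs ht
  have he := EF_eq hn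
  have h1 : y ^ 2 = (r * s * t) ^ 2 := by
    rw [he, mul_pow, mul_pow, ← hr, ← hs, ← ht, hA, hB]
    ring
  rcases sq_eq_sq_iff_eq_or_eq_neg.1 h1 with h | h
  · exact halve_aux h2 hA hB ha hb hab hn (r := -r) (s := s) (t := t)
      (by rw [neg_sq]; exact hr) hs ht (by rw [h]; ring)
  · exact halve_aux h2 hA hB ha hb hab hn hr hs ht h

end Vale.Agent.P017.H766
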