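import Vale.Agent.P017.H766.LocT
import Vale.Agent.P017.H766.Hv

/-! The twist `y ^ 2 = x (x - 9 p) (x + 16 p)` has finitely many rational points for a prime
`p = 83, 107 mod 120` (complete `2`-descent). -/

namespace Vale.Agent.P017.H766

open WeierstrassCurve

theorem no_sum {p : ℕ} (hp : p.Prime) (h4 : p % 4 = 3) (r s : ℚ) :
    r ^ 2 + s ^ 2 ≠ 16 * p := by
  intro h
  have : Fact p.Prime := ⟨hp⟩
  have hr : (r.den : ℚ) ≠ 0 := by exact_mod_cast r.pos.ne'
  have hs : (s.den : ℚ) ≠ 0 := by exact_mod_cast s.pos.ne'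
  have h1 : ((r.num * s.den) ^ 2 + (s.num * r.den) ^ 2 : ℚ) = 16 * p * (r.den * s.den) ^ 2 := by
    have e1 : r * r.den = r.num := Rat.mul_den_eq_num r
    have e2 : s * s.den = s.num := Rat.mul_den_eq_num s
    rw [← e1, ← e2, ← h]
    ring
  have h2 : ((r.num * s.den) ^ 2 + (s.num * r.den) ^ 2 : ℤ) =
      ((16 * p * (r.den * s.den) ^ 2 : ℕ) : ℤ) := by
    push_cast
    exact_mod_cast h1
  have h3 : (r.num * s.den).natAbs ^ 2 + (s.num * r.den).natAbs ^ 2 =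
      16 * p * (r.den * s.den) ^ 2 := by
    have : (((r.num * s.den).natAbs ^ 2 + (s.num * r.den).natAbs ^ 2 : ℕ) : ℤ) =
        ((16 * p * (r.den * s.den) ^ 2 : ℕ) : ℤ) := by
      rw [← h2]
      simp only [Nat.cast_add, Nat.cast_pow, Int.natCast_natAbs, sq_abs]
    exact_mod_cast this
  have hne : 16 * p * (r.den * s.den) ^ 2 ≠ 0 :=
    mul_ne_zero (mul_ne_zero (by norm_num) hp.ne_zero)
      (pow_ne_zero 2 (mul_ne_zero r.pos.ne' s.pos.ne'))
  have h5 := (Nat.eq_sq_add_sq_iff.1 ⟨_, _, h3.symm⟩) p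
    (Nat.mem_primeFactors.2 ⟨hp, ⟨16 * (r.den * s.den) ^ 2, by ring⟩, hne⟩) h4
  have h6 : ¬ p ∣ 16 := by
    intro hd
    have : p ∣ 2 ^ 4 := by simpa using hd
    have := (Nat.prime_dvd_prime_iff_eq hp Nat.prime_two).1 (hp.dvd_of_dvd_pow this)
    omega
  rw [padicValNat.mul (mul_ne_zero (by norm_num) hp.ne_zero)
    (pow_ne_zero 2 (mul_ne_zero r.pos.ne' s.pos.ne')), padicValNat.mul (by norm_num) hp.ne_zero,
    padicValNat.eq_zero_of_not_dvd h6, padicValNat_self, padicValNat.pow] at h5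
  rw [Nat.even_iff] at h5
  omega

/-- the twist. -/
abbrev ET (p : ℕ) : WeierstrassCurve ℚ := EC (7 * p) (-144 * p ^ 2)

theorem sq_div' {a b c : ℚ} (h : IsSquare (a * b * c)) (hab : IsSquare (a * b))
    (h0 : a * b ≠ 0) : IsSquare c := by
  have : c = (a * b * c) / (a * b) := (mul_div_cancel_left₀ c h0).symm
  rw [this]
  exact h.div hab

theorem sqn' (a : ℚ) : IsSquare (a ^ 2) := ⟨a, sq a⟩

theorem isSquare_abs {a : ℚ} (h : IsSquare a) : IsSquare |a| := by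
  obtain ⟨b, rfl⟩ := h
  rw [abs_mul_self]
  exact ⟨b, rfl⟩

theorem halveT {p : ℕ} (hp : p ≠ 0) {x y : ℚ} (hn : (ET p).toAffine.Nonsingular x y)
    (h0 : IsSquare x) (ha : IsSquare (x + -(9 * p))) (hb : IsSquare (x + 16 * p)) :
    ∃ Q, Affine.Point.some x y hn = 2 • Q := by
  have hp0 : (p : ℚ) ≠ 0 := by exact_mod_cast hp
  refine halve (F := ℚ) (a := 9 * (p : ℚ)) (b := -(16 * (p : ℚ))) (by norm_num) (by ring) (by ring)
    (mul_ne_zero (by norm_num) hp0) (neg_ne_zero.2 (mul_ne_zero (by norm_num) hp0)) ?_ hn h0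
    (by rwa [sub_eq_add_neg]) (by rwa [sub_neg_eq_add])
  intro h
  have h1 : 25 * (p : ℚ) = 0 := by linear_combination h
  exact mul_ne_zero (by norm_num) hp0 h1

/-- the property to be proved for all points. -/
def GoodT (p : ℕ) (P : (ET p).toAffine.Point) : Prop :=
  ∃ T Q : (ET p).toAffine.Point, 2 • T = 0 ∧ P = T + 2 • Q

variable {p : ℕ}

theorem goodT_of_two {P : (ET p).toAffine.Point} (h : 2 • P = 0) : GoodT p P :=
  ⟨P, 0, h, by rw [nsmul_zero, add_zero]⟩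

theorem goodT_of_sub {P T : (ET p).toAffine.Point} (hT : 2 • T = 0) (h : GoodT p (P + T)) :
    GoodT p P := by
  obtain ⟨S, Q, hS, hQ⟩ := h
  refine ⟨S - T, Q, by rw [nsmul_sub, hS, hT, sub_zero], ?_⟩
  have : P = (P + T) - T := by abel
  rw [this, hQ]
  abel

theorem two_of_root {x y : ℚ} (hn : (ET p).toAffine.Nonsingular x y) (hy : y = 0) :
    2 • Affine.Point.some x y hn = 0 := by
  rw [two_nsmul]
  refine Affine.Point.add_self_of_Y_eq ?_
  subst hy
  unfold Affine.negY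
  simp

theorem goodT_aux {x y : ℚ} (hn : (ET p).toAffine.Nonsingular x y)
    (H : y ^ 2 = x * (x + -(9 * p)) * (x + 16 * p) → x ≠ 0 → x + -(9 * p) ≠ 0 →
      0 < x + 16 * p → 0 < x * (x + -(9 * p)) →
      GoodT p (Affine.Point.some x y hn)) : GoodT p (Affine.Point.some x y hn) := by
  by_cases hy : y = 0
  · exact goodT_of_two (two_of_root hn hy)
  · have he := EF_eq hn
    have h : y ^ 2 = x * (x + -(9 * p)) * (x + 16 * p) := by rw [he]; ring
    have hpos : 0 < x * (x + -(9 * p)) * (x + 16 * p) := by rw [← h]; positivity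
    have hp0 : (0 : ℚ) ≤ p := Nat.cast_nonneg p
    have hw : 0 < x + 16 * p := by
      by_contra hw
      push Not at hw
      have h1 : 0 ≤ x * (x + -(9 * p)) := mul_nonneg_of_nonpos_of_nonpos (by linarith)
        (by linarith)
      have h2 := mul_nonpos_of_nonneg_of_nonpos h1 hw
      linarith
    have hxz : 0 < x * (x + -(9 * p)) := (pos_iff_pos_of_mul_pos hpos).2 hw
    exact H h (left_ne_zero_of_mul hxz.ne') (right_ne_zero_of_mul hxz.ne') hw hxz

theorem fin_xw (hp : p.Prime) (h4 : p % 4 = 3) {x y : ℚ}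
    (hn : (ET p).toAffine.Nonsingular x y) (hx : IsSquare |x|) (hw : IsSquare |x + 16 * p|) :
    GoodT p (Affine.Point.some x y hn) := by
  refine goodT_aux hn fun h n0 n1 w0 xz0 => ?_
  rw [abs_of_pos w0] at hw
  rcases lt_or_gt_of_ne n0 with h0 | h0
  · exfalso
    rw [abs_of_neg h0] at hx
    obtain ⟨r, hr⟩ := hx
    obtain ⟨s, hs⟩ := hw
    apply no_sum hp h4 r s
    linear_combination -hr - hs
  · rw [abs_of_pos h0] at hx
    have hz : IsSquare (x + -(9 * p)) := by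
      refine sq_div' (a := x) (b := x + 16 * p) ⟨y, ?_⟩ (hx.mul hw)
        (mul_ne_zero n0 w0.ne')
      linear_combination -h
    obtain ⟨Q, hQ⟩ := halveT hp.ne_zero hn hx hz hw
    exact ⟨0, Q, nsmul_zero _, by rw [hQ, zero_add]⟩

theorem habs {x y z w : ℚ} (h : y ^ 2 = x * z * w) : |x| * |z| * |w| = y * y := by
  rw [← abs_mul, ← abs_mul, ← h, abs_of_nonneg (sq_nonneg y), sq]

theorem fin_zw (hp : p.Prime) (h4 : p % 4 = 3) {x y : ℚ}
    (hn : (ET p).toAffine.Nonsingular x y) (hz : IsSquare |x + -(9 * p)|)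
    (hw : IsSquare |x + 16 * p|) :
    GoodT p (Affine.Point.some x y hn) := by
  refine goodT_aux hn fun h n0 n1 w0 xz0 => fin_xw hp h4 hn ?_ hw
  refine sq_div' (a := |x + -(9 * p)|) (b := |x + 16 * p|) ⟨y, ?_⟩ (hz.mul hw)
    (mul_ne_zero (abs_ne_zero.2 n1) (abs_ne_zero.2 w0.ne'))
  rw [← habs h]
  ring

theorem fin_xz (hp : p.Prime) (h4 : p % 4 = 3) {x y : ℚ}
    (hn : (ET p).toAffine.Nonsingular x y) (hx : IsSquare |x|) (hz : IsSquare |x + -(9 * p)|) :
    GoodT p (Affine.Point.some x y hn) := by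
  refine goodT_aux hn fun h n0 n1 w0 xz0 => fin_xw hp h4 hn hx ?_
  refine sq_div' (a := |x|) (b := |x + -(9 * p)|) ⟨y, ?_⟩ (hx.mul hz)
    (mul_ne_zero (abs_ne_zero.2 n0) (abs_ne_zero.2 n1))
  rw [← habs h]

theorem val_abs (q : ℕ) (t : ℚ) : padicValRat q |t| = padicValRat q t := by
  rcases abs_choice t with h | h
  · rw [h]
  · rw [h, padicValRat.neg]

theorem class_abs (hp : p.Prime) {t : ℚ} (ht : t ≠ 0)
    (he : ∀ q : ℕ, q.Prime → ¬ q ∣ p → Even (padicValRat q t)) :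
    IsSquare |t| ∨ IsSquare (p * |t|) := by
  have hpos : 0 < |t| := abs_pos.2 ht
  have hp0 : (p : ℚ) ≠ 0 := by exact_mod_cast hp.ne_zero
  by_cases h5 : Even (padicValRat p t)
  · left
    refine isSquare_of_even hpos fun q hq => ?_
    rw [val_abs]
    by_cases hq5 : q ∣ p
    · rw [(Nat.prime_dvd_prime_iff_eq hq hp).1 hq5]; exact h5
    · exact he q hq hq5
  · right
    have hpp : (0 : ℚ) < p := by exact_mod_cast hp.pos
    refine isSquare_of_even (mul_pos hpp hpos) fun q hq => ?_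
    have : Fact q.Prime := ⟨hq⟩
    rw [padicValRat.mul hp0 hpos.ne', val_abs]
    by_cases hq5 : q ∣ p
    · have hqp := (Nat.prime_dvd_prime_iff_eq hq hp).1 hq5
      subst hqp
      rw [padicValRat.of_nat, padicValNat_self]
      rw [Int.even_iff] at h5 ⊢
      push_cast
      omega
    · rw [padicValRat.of_nat, padicValNat.eq_zero_of_not_dvd hq5, Nat.cast_zero, zero_add]
      exact he q hq hq5

theorem rt0 (p : ℚ) : (0 : ℚ) ^ 3 + 7 * p * (0 : ℚ) ^ 2 + -144 * p ^ 2 * 0 = 0 := by ring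
theorem rt9 (p : ℚ) : (9 * p) ^ 3 + 7 * p * (9 * p) ^ 2 + -144 * p ^ 2 * (9 * p) = 0 := by ring
theorem rt16 (p : ℚ) :
    (-(16 * p)) ^ 3 + 7 * p * (-(16 * p)) ^ 2 + -144 * p ^ 2 * (-(16 * p)) = 0 := by ring

theorem nsT {p : ℕ} (hp : p ≠ 0) {e : ℚ} (he : e ^ 3 + 7 * p * e ^ 2 + -144 * p ^ 2 * e = 0) :
    (ET p).toAffine.Nonsingular e 0 := by
  have hp0 : (p : ℚ) ≠ 0 := by exact_mod_cast hp
  have hell : (EC (7 * p) (-144 * p ^ 2)).IsElliptic := by
    refine isElliptic_EC (mul_ne_zero (by norm_num) (pow_ne_zero 2 hp0)) ?_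
    rw [show (7 * (p : ℚ)) ^ 2 - 4 * (-144 * p ^ 2) = 625 * p ^ 2 by ring]
    exact mul_ne_zero (by norm_num) (pow_ne_zero 2 hp0)
  have hell' : (ET p).toAffine.IsElliptic := hell
  refine (Affine.equation_iff_nonsingular).1 ?_
  refine (Affine.equation_iff ..).2 ?_
  show (0 : ℚ) ^ 2 + 0 * e * 0 + 0 * 0 = e ^ 3 + 7 * p * e ^ 2 + -144 * p ^ 2 * e + 0
  linear_combination -he

theorem abs_tr {a b c : ℚ} (h : IsSquare (a * b * c)) (hab : IsSquare (|a| * |b|)) (ha : a ≠ 0)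
    (hb : b ≠ 0) : IsSquare |c| := by
  refine sq_div' (a := |a|) (b := |b|) ?_ hab
    (mul_ne_zero (abs_ne_zero.2 ha) (abs_ne_zero.2 hb))
  rw [← abs_mul, ← abs_mul]
  exact isSquare_abs h

theorem goodT (hp : p.Prime) (h3 : (p : ZMod 3) = 2) (h8 : (p : ZMod 8) = 3)
    (h5 : (p : ZMod 5) = 2 ∨ (p : ZMod 5) = 3) (P : (ET p).toAffine.Point) : GoodT p P := by
  have h4 : p % 4 = 3 := by
    have h1 : (p : ZMod 8) = ((3 : ℕ) : ZMod 8) := by rw [h8]; rfl
    have := (ZMod.natCast_eq_natCast_iff' p 3 8).1 h1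
    omega
  have hp0 : (p : ℚ) ≠ 0 := by exact_mod_cast hp.ne_zero
  have hpp : (0 : ℚ) < p := by exact_mod_cast hp.pos
  rcases P with _ | ⟨x, y, hn⟩
  · exact goodT_of_two (nsmul_zero _)
  refine goodT_aux hn fun h n0 n1 w0 xz0 => ?_
  have cx := class_abs hp n0 (tw_even_x h3 h8 h n0 n1 w0.ne')
  have cz := class_abs hp n1 (tw_even_z (y := y) h3 h5 (by rw [h]; ring) n1
    (by simpa using n0) (by rw [show x + -(9 * (p : ℚ)) + 25 * p = x + 16 * p by ring]; exact w0.ne'))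
  have key : |x| * |x + -(9 * p)| * |x + 16 * p| = y * y := habs h
  have a0 : |x| ≠ 0 := abs_ne_zero.2 n0
  have a1 : |x + -(9 * (p : ℚ))| ≠ 0 := abs_ne_zero.2 n1
  have a2 : |x + 16 * (p : ℚ)| ≠ 0 := abs_ne_zero.2 w0.ne'
  rcases cx with cx | cx <;> rcases cz with cz | cz
  · exact fin_xz hp h4 hn cx cz
  · -- `T = (0, 0)`
    have cw : IsSquare (p * |x + 16 * p|) := by
      refine sq_div' (a := |x|) (b := p * |x + -(9 * p)|) ⟨p * y, ?_⟩ (cx.mul cz)
        (mul_ne_zero a0 (mul_ne_zero hp0 a1))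
      linear_combination (p : ℚ) ^ 2 * key
    obtain ⟨x3, y3, hn3, hadd, hsq⟩ := add_point hn (nsT hp.ne_zero (rt0 p)) n0
    refine goodT_of_sub (two_of_root (nsT hp.ne_zero (rt0 p)) rfl) ?_
    rw [hadd]
    have s9 := hsq _ (rt9 p)
    have s16 := hsq _ (rt16 p)
    rw [sub_eq_add_neg, sub_eq_add_neg, sub_eq_add_neg] at s9
    rw [sub_neg_eq_add, sub_neg_eq_add, sub_neg_eq_add] at s16
    refine fin_zw hp h4 hn3 (abs_tr s9 ?_ n1 ?_) (abs_tr s16 ?_ w0.ne' ?_)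
    · rw [zero_add, abs_neg, abs_of_pos (mul_pos (by norm_num : (0 : ℚ) < 9) hpp)]
      have := cz.mul (sqn' 3)
      rw [show (p : ℚ) * |x + -(9 * p)| * 3 ^ 2 = |x + -(9 * p)| * (9 * p) by ring] at this
      exact this
    · rw [zero_add]
      exact neg_ne_zero.2 (mul_ne_zero (by norm_num) hp0)
    · rw [zero_add, abs_of_pos (mul_pos (by norm_num : (0 : ℚ) < 16) hpp)]
      have := cw.mul (sqn' 4)
      rw [show (p : ℚ) * |x + 16 * p| * 4 ^ 2 = |x + 16 * p| * (16 * p) by ring] at this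
      exact this
    · rw [zero_add]
      exact mul_ne_zero (by norm_num) hp0
  · -- `T = (9 p, 0)`
    have cw : IsSquare (p * |x + 16 * p|) := by
      refine sq_div' (a := p * |x|) (b := |x + -(9 * p)|) ⟨p * y, ?_⟩ (cx.mul cz)
        (mul_ne_zero (mul_ne_zero hp0 a0) a1)
      linear_combination (p : ℚ) ^ 2 * key
    obtain ⟨x3, y3, hn3, hadd, hsq⟩ := add_point hn (nsT hp.ne_zero (rt9 p))
      (fun hx => n1 (by rw [hx]; ring))
    refine goodT_of_sub (two_of_root (nsT hp.ne_zero (rt9 p)) rfl) ?_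
    rw [hadd]
    have s0 := hsq _ (rt0 p)
    have s16 := hsq _ (rt16 p)
    rw [sub_zero, sub_zero, sub_zero] at s0
    rw [sub_neg_eq_add, sub_neg_eq_add, sub_neg_eq_add] at s16
    refine fin_xw hp h4 hn3 (abs_tr s0 ?_ n0 ?_) (abs_tr s16 ?_ w0.ne' ?_)
    · rw [abs_of_pos (mul_pos (by norm_num : (0 : ℚ) < 9) hpp)]
      have := cx.mul (sqn' 3)
      rw [show (p : ℚ) * |x| * 3 ^ 2 = |x| * (9 * p) by ring] at this
      exact this
    · exact mul_ne_zero (by norm_num) hp0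
    · rw [show 9 * (p : ℚ) + 16 * p = 25 * p by ring,
        abs_of_pos (mul_pos (by norm_num : (0 : ℚ) < 25) hpp)]
      have := cw.mul (sqn' 5)
      rw [show (p : ℚ) * |x + 16 * p| * 5 ^ 2 = |x + 16 * p| * (25 * p) by ring] at this
      exact this
    · rw [show 9 * (p : ℚ) + 16 * p = 25 * p by ring]
      exact mul_ne_zero (by norm_num) hp0
  · -- `T = (-16 p, 0)`
    obtain ⟨x3, y3, hn3, hadd, hsq⟩ := add_point hn (nsT hp.ne_zero (rt16 p))
      (fun hx => w0.ne' (by rw [hx]; ring))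
    refine goodT_of_sub (two_of_root (nsT hp.ne_zero (rt16 p)) rfl) ?_
    rw [hadd]
    have s0 := hsq _ (rt0 p)
    have s9 := hsq _ (rt9 p)
    rw [sub_zero, sub_zero, sub_zero] at s0
    rw [sub_eq_add_neg, sub_eq_add_neg, sub_eq_add_neg] at s9
    refine fin_xz hp h4 hn3 (abs_tr s0 ?_ n0 ?_) (abs_tr s9 ?_ n1 ?_)
    · rw [abs_neg, abs_of_pos (mul_pos (by norm_num : (0 : ℚ) < 16) hpp)]
      have := cx.mul (sqn' 4)
      rw [show (p : ℚ) * |x| * 4 ^ 2 = |x| * (16 * p) by ring] at this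
      exact this
    · exact neg_ne_zero.2 (mul_ne_zero (by norm_num) hp0)
    · rw [show -(16 * (p : ℚ)) + -(9 * p) = -(25 * p) by ring, abs_neg,
        abs_of_pos (mul_pos (by norm_num : (0 : ℚ) < 25) hpp)]
      have := cz.mul (sqn' 5)
      rw [show (p : ℚ) * |x + -(9 * p)| * 5 ^ 2 = |x + -(9 * p)| * (25 * p) by ring] at this
      exact this
    · rw [show -(16 * (p : ℚ)) + -(9 * p) = -(25 * p) by ring]
      exact neg_ne_zero.2 (mul_ne_zero (by norm_num) hp0)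

/-- **the twist has finitely many rational points.** -/
theorem finite_ET (hp : p.Prime) (h3 : (p : ZMod 3) = 2) (h8 : (p : ZMod 8) = 3)
    (h5 : (p : ZMod 5) = 2 ∨ (p : ZMod 5) = 3) :
    {t : ℚ × ℚ | t.2 ^ 2 = t.1 ^ 3 - 7 * (-p) * t.1 ^ 2 - 144 * (-p) ^ 2 * t.1}.Finite := by
  have hp0 : (p : ℚ) ≠ 0 := by exact_mod_cast hp.ne_zero
  refine (finite_rat (A := 7 * p) (B := -144 * p ^ 2)
    (mul_ne_zero (by norm_num) (pow_ne_zero 2 hp0)) ?_ (N := 2) (by norm_num)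
    (goodT hp h3 h8 h5)).subset fun t ht => ?_
  · rw [show (7 * (p : ℚ)) ^ 2 - 4 * (-144 * p ^ 2) = 625 * p ^ 2 by ring]
    exact mul_ne_zero (by norm_num) (pow_ne_zero 2 hp0)
  · have ht' : t.2 ^ 2 = t.1 ^ 3 - 7 * (-p) * t.1 ^ 2 - 144 * (-p) ^ 2 * t.1 := ht
    show t.2 ^ 2 = t.1 ^ 3 + 7 * p * t.1 ^ 2 + -144 * p ^ 2 * t.1
    linear_combination ht'

end Vale.Agent.P017.H766
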