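import Vale.Agent.P017.H766.LocQ
import Vale.Agent.P017.H766.TwQ

/-! The twist `y ^ 2 = x (x - 9 d) (x + 16 d)`, `d` squarefree: complete `2`-descent. -/

namespace Vale.Agent.P017.H766

open WeierstrassCurve

/-- the squarefree class of a rational number supported on the primes dividing `d`. -/
theorem classD {d : ℕ} (hd : Squarefree d) {t : ℚ} (ht : t ≠ 0)
    (he : ∀ q : ℕ, q.Prime → ¬ q ∣ d → Even (padicValRat q t)) :
    ∃ m M : ℕ, m * M = d ∧ IsSquare (m * |t|) ∧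
      ∀ q : ℕ, q.Prime → q ∣ d → (q ∣ m ↔ ¬ Even (padicValRat q t)) := by
  classical
  have hd0 : d ≠ 0 := hd.ne_zero
  have hpos : 0 < |t| := abs_pos.2 ht
  let S := d.primeFactors.filter fun q => ¬ Even (padicValRat q t)
  have hmd : (∏ q ∈ S, q) ∣ d := by
    have h1 := Finset.prod_dvd_prod_of_subset S d.primeFactors (fun q => q)
      (Finset.filter_subset _ _)
    rwa [Nat.prod_primeFactors_of_squarefree hd] at h1
  have hqm : ∀ q : ℕ, q.Prime → (q ∣ (∏ q ∈ S, q) ↔ q ∈ S) := by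
    intro q hq
    constructor
    · intro h
      obtain ⟨r, hr, hqr⟩ := (Prime.dvd_finsetProd_iff hq.prime _).1 h
      have hrp : r.Prime := Nat.prime_of_mem_primeFactors (Finset.mem_filter.1 hr).1
      rwa [(Nat.prime_dvd_prime_iff_eq hq hrp).1 hqr]
    · exact fun h => Finset.dvd_prod_of_mem _ h
  obtain ⟨M, hM⟩ := hmd
  have hm0 : (∏ q ∈ S, q) ≠ 0 := fun h => hd0 (by rw [hM, h, zero_mul])
  have hmsq : Squarefree (∏ q ∈ S, q) := hd.squarefree_of_dvd ⟨M, hM⟩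
  generalize (∏ q ∈ S, q) = m at hM hqm hm0 hmsq
  refine ⟨m, M, hM.symm, ?_, ?_⟩
  · have hm0' : (m : ℚ) ≠ 0 := by exact_mod_cast hm0
    have hmp : (0 : ℚ) < m := by exact_mod_cast Nat.pos_of_ne_zero hm0
    refine isSquare_of_even (mul_pos hmp hpos) fun q hq => ?_
    have : Fact q.Prime := ⟨hq⟩
    rw [padicValRat.mul hm0' hpos.ne', val_abs, padicValRat.of_nat]
    by_cases hqS : q ∈ S
    · have h1 : q ∣ m := (hqm q hq).2 hqS
      have h2 : padicValNat q m = 1 := by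
        have h3 : 1 ≤ padicValNat q m := one_le_padicValNat_of_dvd hm0 h1
        have h4 : ¬ 2 ≤ padicValNat q m := by
          intro h5
          have h6 : q ^ 2 ∣ m := (pow_dvd_pow q h5).trans pow_padicValNat_dvd
          rw [sq] at h6
          exact hq.one_lt.ne' (Nat.isUnit_iff.1 (hmsq q h6))
        omega
      have h3 := (Finset.mem_filter.1 hqS).2
      rw [h2]
      rw [Int.even_iff] at h3 ⊢
      push_cast
      omega
    · have h1 : ¬ q ∣ m := fun h => hqS ((hqm q hq).1 h)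
      rw [padicValNat.eq_zero_of_not_dvd h1, Nat.cast_zero, zero_add]
      by_cases hqd : q ∣ d
      · by_contra h2
        exact hqS (Finset.mem_filter.2 ⟨Nat.mem_primeFactors.2 ⟨hq, hqd, hd0⟩, h2⟩)
      · exact he q hq hqd
  · intro q hq hqd
    rw [hqm q hq]
    constructor
    · exact fun h => (Finset.mem_filter.1 h).2
    · exact fun h => Finset.mem_filter.2 ⟨Nat.mem_primeFactors.2 ⟨hq, hqd, hd0⟩, h⟩

/-- no solution modulo `4`. -/
theorem mod4_int {a b c : ℤ} (ha : a % 4 = 1) (hb : b % 4 = 3) (hc : c % 4 = 3) :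
    ∀ n : ℕ, ∀ R S T : ℤ, T ≠ 0 → T.natAbs ≤ n → a * R ^ 2 - b * S ^ 2 ≠ c * T ^ 2 := by
  have a4 : (a : ZMod 4) = 1 := by
    have := (ZMod.intCast_eq_intCast_iff a 1 4).2 (by rw [Int.ModEq]; omega)
    simpa using this
  have b4 : (b : ZMod 4) = 3 := by
    have := (ZMod.intCast_eq_intCast_iff b 3 4).2 (by rw [Int.ModEq]; omega)
    simpa using this
  have c4 : (c : ZMod 4) = 3 := by
    have := (ZMod.intCast_eq_intCast_iff c 3 4).2 (by rw [Int.ModEq]; omega)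
    simpa using this
  have even_of : ∀ m : ℤ, 2 * (m : ZMod 4) = 0 → ∃ k, m = 2 * k := by
    intro m hm
    have h2 : ((2 * m : ℤ) : ZMod 4) = 0 := by push_cast; exact hm
    have h3 := (ZMod.intCast_zmod_eq_zero_iff_dvd (2 * m) 4).1 h2
    push_cast at h3
    exact ⟨m / 2, by omega⟩
  have key : ∀ R S T : ZMod 4, 1 * R ^ 2 - 3 * S ^ 2 = 3 * T ^ 2 →
      2 * R = 0 ∧ 2 * S = 0 ∧ 2 * T = 0 := by decide
  intro n
  induction n with
  | zero =>
    intro R S T hT hn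
    exact absurd (Int.natAbs_eq_zero.1 (Nat.le_zero.1 hn)) hT
  | succ n ih =>
    intro R S T hT hn h
    have h1 := congrArg (Int.cast : ℤ → ZMod 4) h
    push_cast at h1
    rw [a4, b4, c4] at h1
    obtain ⟨hR, hS, hT'⟩ := key _ _ _ h1
    obtain ⟨R', rfl⟩ := even_of R hR
    obtain ⟨S', rfl⟩ := even_of S hS
    obtain ⟨T', rfl⟩ := even_of T hT'
    refine ih R' S' T' (fun h0 => hT (by rw [h0]; rfl)) (by omega) ?_
    linarith

theorem mod4_rat {a b c : ℤ} (ha : a % 4 = 1) (hb : b % 4 = 3) (hc : c % 4 = 3)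
    {r s t : ℚ} (ht : t ≠ 0) : a * r ^ 2 - b * s ^ 2 ≠ c * t ^ 2 := by
  intro h
  have e1 : r * r.den = r.num := Rat.mul_den_eq_num r
  have e2 : s * s.den = s.num := Rat.mul_den_eq_num s
  have e3 : t * t.den = t.num := Rat.mul_den_eq_num t
  have d1 : (r.den : ℤ) ≠ 0 := by exact_mod_cast r.pos.ne'
  have d2 : (s.den : ℤ) ≠ 0 := by exact_mod_cast s.pos.ne'
  refine mod4_int ha hb hc _ (r.num * s.den * t.den) (s.num * r.den * t.den)
    (t.num * r.den * s.den) (mul_ne_zero (mul_ne_zero (Rat.num_ne_zero.2 ht) d1) d2) le_rfl ?_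
  have : ((a * (r.num * s.den * t.den) ^ 2 - b * (s.num * r.den * t.den) ^ 2 : ℤ) : ℚ) =
      ((c * (t.num * r.den * s.den) ^ 2 : ℤ) : ℚ) := by
    push_cast
    rw [← e1, ← e2, ← e3]
    linear_combination ((r.den : ℚ) * s.den * t.den) ^ 2 * h
  exact_mod_cast this

theorem even_of_sq {q : ℕ} [Fact q.Prime] {t : ℚ} (ht : t ≠ 0) (h : IsSquare (t : ℚ_[q])) :
    Even (padicValRat q t) := by
  obtain ⟨s, hs⟩ := h
  have ht' : (t : ℚ_[q]) ≠ 0 := by exact_mod_cast ht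
  have hs0 : s ≠ 0 := by
    rintro rfl
    exact ht' (by rw [hs, mul_zero])
  have h1 := congrArg Padic.valuation hs
  rw [Padic.valuation_mul hs0 hs0, Padic.valuation_ratCast] at h1
  exact ⟨_, h1⟩

variable {d : ℕ}

/-- the squarefree integers `d` covered: no nontrivial factorisation `d = m M` with `m` a square
modulo every prime divisor of `M` and `M` a square modulo every prime divisor of `m`. -/
def R1 (d : ℕ) : Prop := ∀ m M : ℕ, m * M = d →
  (∀ q : ℕ, q.Prime → q ∣ M → IsSquare ((m : ℤ) : ZMod q)) →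
  (∀ q : ℕ, q.Prime → q ∣ m → IsSquare ((M : ℤ) : ZMod q)) → m = 1 ∨ M = 1

/-- the same for `- d = a b` with `a = b = 1` modulo `4`. -/
def R2 (d : ℕ) : Prop := ∀ a b : ℤ, a * b = -d → a % 4 = 1 → b % 4 = 1 →
  (∀ q : ℕ, q.Prime → (q : ℤ) ∣ b → IsSquare (a : ZMod q)) →
  (∀ q : ℕ, q.Prime → (q : ℤ) ∣ a → IsSquare (b : ZMod q)) → a = 1 ∨ b = 1

theorem locD {q : ℕ} [Fact q.Prime] (hq : 5 < q) (hsf : Squarefree d) (hqd : q ∣ d)
    {x y : ℚ} (h : y ^ 2 = x * (x + -(9 * d)) * (x + 16 * d)) (hy : y ≠ 0) :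
    (IsSquare (x : ℚ_[q]) ∧ IsSquare ((x + -(9 * d) : ℚ) : ℚ_[q])) ∨
    (IsSquare ((-x : ℚ) : ℚ_[q]) ∧ IsSquare ((-(d * (x + -(9 * d))) : ℚ) : ℚ_[q])) ∨
    (IsSquare ((d * x : ℚ) : ℚ_[q]) ∧ IsSquare ((x + -(9 * d) : ℚ) : ℚ_[q])) ∨
    (IsSquare ((-(d * x) : ℚ) : ℚ_[q]) ∧ IsSquare ((-(d * (x + -(9 * d))) : ℚ) : ℚ_[q])) := by
  have hqp : q.Prime := Fact.out
  have hD : ‖(d : ℚ_[q])‖ = (q : ℝ)⁻¹ := by
    obtain ⟨k, rfl⟩ := hqd
    have hk : ¬ q ∣ k := fun hk => by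
      obtain ⟨j, rfl⟩ := hk
      exact hqp.one_lt.ne' (Nat.isUnit_iff.1 (hsf q ⟨j, by ring⟩))
    rw [Nat.cast_mul, norm_mul, Padic.norm_p, norm_one_of_not_dvd hk, mul_one]
  have h' : (y : ℚ_[q]) ^ 2 = x * (x - 9 * d) * (x + 16 * d) := by
    have := congrArg (Rat.cast : ℚ → ℚ_[q]) h
    push_cast at this
    rw [this]
    ring
  have := loc hq hD h' (by exact_mod_cast hy)
  push_cast
  simpa only [← sub_eq_add_neg] using this

theorem rep {m : ℕ} {t : ℚ} {e : ℤ} (hm : m ≠ 0) (he : (e : ℚ) * t = |t|) (he2 : e * e = 1)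
    (h : IsSquare (m * |t|)) : ∃ r : ℚ, t = ((e * m : ℤ) : ℚ) * r ^ 2 := by
  obtain ⟨u, hu⟩ := h
  have hm0 : (m : ℚ) ≠ 0 := by exact_mod_cast hm
  have he3 : (e : ℚ) * e = 1 := by exact_mod_cast he2
  refine ⟨u / m, ?_⟩
  push_cast
  have h1 : t = e * |t| := by rw [← he, ← mul_assoc, he3, one_mul]
  have h2 : |t| = u * u / m := by rw [← hu]; field_simp
  rw [h1, h2]
  field_simp

theorem sign_mod4 (hd8 : d % 8 = 3) {x y : ℚ}
    (h : y ^ 2 = x * (x + -(9 * d)) * (x + 16 * d)) (hy : y ≠ 0) {m n c : ℕ}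
    (hmd : m ∣ d) (hnd : n ∣ d) (hcd : c ∣ d) {e : ℤ} (he2 : e * e = 1)
    (hex : (e : ℚ) * x = |x|) (hez : (e : ℚ) * (x + -(9 * d)) = |x + -(9 * d)|)
    (hw : |x + 16 * d| = x + 16 * d)
    (hm : IsSquare (m * |x|)) (hn : IsSquare (n * |x + -(9 * d)|))
    (hc : IsSquare (c * |x + 16 * d|)) : (e * n) % 4 = 1 := by
  have hd0 : d ≠ 0 := by omega
  have odd_of : ∀ k : ℕ, k ∣ d → k % 2 = 1 := by
    intro k hk
    by_contra h1
    have h2 : 2 ∣ d := (show 2 ∣ k by omega).trans hk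
    omega
  have hm2 := odd_of m hmd
  have hn2 := odd_of n hnd
  have hc2 := odd_of c hcd
  have m0 : m ≠ 0 := by omega
  have n0 : n ≠ 0 := by omega
  have c0 : c ≠ 0 := by omega
  have he : e = 1 ∨ e = -1 := by
    have : e * e = 1 * 1 := by rw [he2]; rfl
    exact mul_self_eq_mul_self_iff.1 this
  obtain ⟨r, hr⟩ := rep m0 hex he2 hm
  obtain ⟨s, hs⟩ := rep n0 hez he2 hn
  obtain ⟨t, ht⟩ := rep (e := 1) c0 (by rw [hw]; simp) (by norm_num) hc
  by_contra hne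
  have hn3 : (e * n) % 4 = 3 := by
    rcases he with rfl | rfl <;> omega
  have hd3 : ((d : ℤ)) % 4 = 3 := by omega
  have hm3 : (e * m) % 4 = 3 := by
    by_contra h3
    have h1 : (e * m) % 4 = 1 := by rcases he with rfl | rfl <;> omega
    refine mod4_rat h1 hn3 hd3 (r := r) (s := s) (t := 3) (by norm_num) ?_
    rw [← hr, ← hs]
    push_cast
    ring
  have hc3 : ((1 : ℤ) * c) % 4 = 3 := by
    by_contra h3
    have h1 : ((1 : ℤ) * c) % 4 = 1 := by omega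
    refine mod4_rat h1 hn3 hd3 (r := t) (s := s) (t := 5) (by norm_num) ?_
    rw [← ht, ← hs]
    push_cast
    ring
  have key : |x| * |x + -(9 * d)| * |x + 16 * d| = y * y := habs h
  have hsq : IsSquare (((m * n * c : ℕ) : ℤ) : ℚ) := by
    have h1 := (hm.mul hn).mul hc
    have h2 : (((m * n * c : ℕ) : ℤ) : ℚ) =
        (m * |x| * (n * |x + -(9 * d)|) * (c * |x + 16 * d|)) / (y * y) := by
      rw [eq_div_iff (mul_ne_zero hy hy), ← key]
      push_cast
      ring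
    rw [h2]
    exact h1.div ⟨y, rfl⟩
  obtain ⟨k, hk⟩ := Rat.isSquare_intCast_iff.1 hsq
  have h4 : (e * m) * (e * n) * (1 * c) = k * k := by
    have : (e * m) * (e * n) * (1 * (c : ℤ)) = (e * e) * ((m * n * c : ℕ) : ℤ) := by
      push_cast; ring
    rw [this, he2, one_mul, hk]
  have h5 : ((e * m) * (e * n) * (1 * c)) % 4 = 3 := by
    rw [Int.mul_emod, Int.mul_emod (e * m), hm3, hn3, hc3]
    rfl
  rw [h4, Int.mul_emod] at h5
  have h6 : k % 4 = 0 ∨ k % 4 = 1 ∨ k % 4 = 2 ∨ k % 4 = 3 := by omega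
  rcases h6 with h6 | h6 | h6 | h6 <;> rw [h6] at h5 <;> norm_num at h5

theorem five_lt {q : ℕ} (hd : d % 120 = 83 ∨ d % 120 = 107) (hq : q.Prime) (hqd : q ∣ d) :
    5 < q := by
  by_contra h
  push Not at h
  have h2 := hq.two_le
  interval_cases q
  · omega
  · omega
  · exact absurd hq (by norm_num)
  · omega

theorem odd_d_val {q : ℕ} [Fact q.Prime] (hsf : Squarefree d) (hqd : q ∣ d) {t : ℚ}
    (ht : t ≠ 0) : padicValRat q (d * t) = 1 + padicValRat q t := by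
  have hqp : q.Prime := Fact.out
  have hd0 : (d : ℚ) ≠ 0 := by exact_mod_cast hsf.ne_zero
  rw [padicValRat.mul hd0 ht, padicValRat.of_nat]
  have h1 : padicValNat q d = 1 := by
    have h3 : 1 ≤ padicValNat q d := one_le_padicValNat_of_dvd hsf.ne_zero hqd
    have h4 : ¬ 2 ≤ padicValNat q d := by
      intro h5
      have h6 : q ^ 2 ∣ d := (pow_dvd_pow q h5).trans pow_padicValNat_dvd
      rw [sq] at h6
      exact hqp.one_lt.ne' (Nat.isUnit_iff.1 (hsf q h6))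
    omega
  rw [h1, Nat.cast_one]

/-- at `q ∣ d`: the class of `z = x - 9 d`. -/
theorem locZ {q : ℕ} [Fact q.Prime] (hq : 5 < q) (hsf : Squarefree d) (hqd : q ∣ d)
    {x y : ℚ} (h : y ^ 2 = x * (x + -(9 * d)) * (x + 16 * d)) (hy : y ≠ 0)
    (z0 : x + -(9 * d) ≠ 0) :
    (Even (padicValRat q (x + -(9 * d))) → IsSquare ((x + -(9 * d) : ℚ) : ℚ_[q])) ∧
    (¬ Even (padicValRat q (x + -(9 * d))) →
      IsSquare ((-(d * (x + -(9 * d))) : ℚ) : ℚ_[q])) := by
  have hd0 : (d : ℚ) ≠ 0 := by exact_mod_cast hsf.ne_zero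
  have h1 : IsSquare ((x + -(9 * d) : ℚ) : ℚ_[q]) → Even (padicValRat q (x + -(9 * d))) :=
    fun h1 => even_of_sq z0 h1
  have h2 : IsSquare ((-(d * (x + -(9 * d))) : ℚ) : ℚ_[q]) →
      ¬ Even (padicValRat q (x + -(9 * d))) := by
    intro h2 h3
    have h4 := even_of_sq (neg_ne_zero.2 (mul_ne_zero hd0 z0)) h2
    rw [padicValRat.neg, odd_d_val hsf hqd z0] at h4
    rw [Int.even_iff] at h3 h4
    omega
  rcases locD hq hsf hqd h hy with h3 | h3 | h3 | h3
  · exact ⟨fun _ => h3.2, fun h4 => absurd (h1 h3.2) h4⟩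
  · exact ⟨fun h4 => absurd h4 (h2 h3.2), fun _ => h3.2⟩
  · exact ⟨fun _ => h3.2, fun h4 => absurd (h1 h3.2) h4⟩
  · exact ⟨fun h4 => absurd h4 (h2 h3.2), fun _ => h3.2⟩

/-- at `q ∣ d`: the class of `x` when `z` is a square. -/
theorem locX {q : ℕ} [Fact q.Prime] (hq : 5 < q) (hsf : Squarefree d) (hqd : q ∣ d)
    {x y : ℚ} (h : y ^ 2 = x * (x + -(9 * d)) * (x + 16 * d)) (hy : y ≠ 0)
    (x0 : x ≠ 0) (z0 : x + -(9 * d) ≠ 0) (hz : IsSquare (x + -(9 * d))) :
    (Even (padicValRat q x) → IsSquare ((x : ℚ) : ℚ_[q])) ∧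
    (¬ Even (padicValRat q x) → IsSquare ((d * x : ℚ) : ℚ_[q])) := by
  have hd0 : (d : ℚ) ≠ 0 := by exact_mod_cast hsf.ne_zero
  have hzq : Even (padicValRat q (x + -(9 * d))) := by
    refine even_of_sq z0 ?_
    obtain ⟨u, hu⟩ := hz
    exact ⟨u, by rw [hu]; push_cast; rfl⟩
  have h2 : ¬ IsSquare ((-(d * (x + -(9 * d))) : ℚ) : ℚ_[q]) := by
    intro h2
    have h4 := even_of_sq (neg_ne_zero.2 (mul_ne_zero hd0 z0)) h2
    rw [padicValRat.neg, odd_d_val hsf hqd z0] at h4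
    rw [Int.even_iff] at hzq h4
    omega
  have h3 : IsSquare ((x : ℚ) : ℚ_[q]) → Even (padicValRat q x) := fun h1 => even_of_sq x0 h1
  have h4 : IsSquare ((d * x : ℚ) : ℚ_[q]) → ¬ Even (padicValRat q x) := by
    intro h4 h5
    have h6 := even_of_sq (mul_ne_zero hd0 x0) h4
    rw [odd_d_val hsf hqd x0] at h6
    rw [Int.even_iff] at h5 h6
    omega
  rcases locD hq hsf hqd h hy with h5 | h5 | h5 | h5
  · exact ⟨fun _ => h5.1, fun h6 => absurd (h3 h5.1) h6⟩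
  · exact absurd h5.2 h2
  · exact ⟨fun h6 => absurd h6 (h4 h5.1), fun _ => h5.1⟩
  · exact absurd h5.2 h2

/-- transfer of a local square along a global square. -/
theorem sq_transfer {q : ℕ} [Fact q.Prime] {a : ℤ} {b t : ℚ} (ht : t ≠ 0)
    (hat : IsSquare (a * b ^ 2 * t)) (hb : b ≠ 0) (h : IsSquare (t : ℚ_[q])) :
    IsSquare (a : ZMod q) := by
  apply sq_int
  have ht' : (t : ℚ_[q]) ≠ 0 := by exact_mod_cast ht
  have hb' : (b : ℚ_[q]) ≠ 0 := by exact_mod_cast hb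
  obtain ⟨u, hu⟩ := hat
  have h1 : (a : ℚ_[q]) * b ^ 2 * t = u * u := by
    have := congrArg (Rat.cast : ℚ → ℚ_[q]) hu
    push_cast at this
    exact this
  have h2 : (a : ℚ_[q]) = (u / b) ^ 2 / t := by
    rw [eq_div_iff ht', div_pow, eq_div_iff (pow_ne_zero 2 hb')]
    rw [sq (u : ℚ_[q]), ← h1]
    ring
  rw [h2]
  exact IsSquare.div ⟨_, sq _⟩ h

theorem not_dvd_both {m M q : ℕ} (hsf : Squarefree d) (hq : q.Prime) (hmM : m * M = d)
    (h1 : q ∣ m) (h2 : q ∣ M) : False := by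
  have h3 : q * q ∣ d := hmM ▸ Nat.mul_dvd_mul h1 h2
  exact hq.one_lt.ne' (Nat.isUnit_iff.1 (hsf q h3))

/-- the three parities outside `d`. -/
theorem parities (hd : d % 120 = 83 ∨ d % 120 = 107) {x y : ℚ}
    (h : y ^ 2 = x * (x + -(9 * d)) * (x + 16 * d)) (x0 : x ≠ 0)
    (z0 : x + -(9 * d) ≠ 0) (w0 : x + 16 * d ≠ 0) (q : ℕ) (hq : q.Prime) (hqd : ¬ q ∣ d) :
    Even (padicValRat q x) ∧ Even (padicValRat q (x + -(9 * d))) ∧
      Even (padicValRat q (x + 16 * d)) := by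
  have h3 : (d : ZMod 3) = 2 := by
    have : (d : ZMod 3) = ((2 : ℕ) : ZMod 3) := (ZMod.natCast_eq_natCast_iff' d 2 3).2 (by omega)
    rw [this]; rfl
  have h8 : (d : ZMod 8) = 3 := by
    have : (d : ZMod 8) = ((3 : ℕ) : ZMod 8) := (ZMod.natCast_eq_natCast_iff' d 3 8).2 (by omega)
    rw [this]; rfl
  have h5 : (d : ZMod 5) = 2 ∨ (d : ZMod 5) = 3 := by
    rcases hd with h | h
    · right
      have : (d : ZMod 5) = ((3 : ℕ) : ZMod 5) :=
        (ZMod.natCast_eq_natCast_iff' d 3 5).2 (by omega)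
      rw [this]; rfl
    · left
      have : (d : ZMod 5) = ((2 : ℕ) : ZMod 5) :=
        (ZMod.natCast_eq_natCast_iff' d 2 5).2 (by omega)
      rw [this]; rfl
  have : Fact q.Prime := ⟨hq⟩
  have e1 := tw_even_x h3 h8 h x0 z0 w0 q hq hqd
  have e2 := tw_even_z (y := y) h3 h5 (by rw [h]; ring) z0 (by simpa using x0)
    (by rw [show x + -(9 * (d : ℚ)) + 25 * d = x + 16 * d by ring]; exact w0) q hq hqd
  refine ⟨e1, e2, ?_⟩
  have e3 := val_sum (p := q) x0 z0 w0 h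
  rw [Int.even_iff] at e1 e2 ⊢
  omega

/-- common data of a point. -/
theorem data (hsf : Squarefree d) (hd : d % 120 = 83 ∨ d % 120 = 107) {x y : ℚ}
    (h : y ^ 2 = x * (x + -(9 * d)) * (x + 16 * d)) (x0 : x ≠ 0)
    (z0 : x + -(9 * d) ≠ 0) (w0 : 0 < x + 16 * d) (xz0 : 0 < x * (x + -(9 * d))) :
    ∃ e : ℤ, (e = 1 ∨ e = -1) ∧ (e : ℚ) * x = |x| ∧
      (e : ℚ) * (x + -(9 * d)) = |x + -(9 * d)| ∧
      ∀ n : ℕ, n ∣ d → IsSquare (n * |x + -(9 * d)|) → (e * n) % 4 = 1 := by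
  have hd8 : d % 8 = 3 := by omega
  have hy : y ≠ 0 := by
    rintro rfl
    exact mul_ne_zero (mul_ne_zero x0 z0) w0.ne' (by rw [← h]; ring)
  obtain ⟨m, M, hmM, hm, -⟩ := classD hsf x0 fun q hq hqd =>
    (parities hd h x0 z0 w0.ne' q hq hqd).1
  obtain ⟨c, C, hcC, hc, -⟩ := classD hsf w0.ne' fun q hq hqd =>
    (parities hd h x0 z0 w0.ne' q hq hqd).2.2
  have hw : |x + 16 * d| = x + 16 * d := abs_of_pos w0
  rcases lt_or_gt_of_ne x0 with hx | hx
  · have hz : x + -(9 * d) < 0 := by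
      by_contra hz
      push Not at hz
      have := mul_nonpos_of_nonpos_of_nonneg hx.le hz
      linarith
    refine ⟨-1, Or.inr rfl, ?_, ?_, fun n hn hns => ?_⟩
    · rw [abs_of_neg hx]; push_cast; ring
    · rw [abs_of_neg hz]; push_cast; ring
    · refine sign_mod4 hd8 h hy (m := m) (n := n) (c := c) ⟨M, hmM.symm⟩ hn ⟨C, hcC.symm⟩
        (by norm_num) ?_ ?_ hw hm hns hc
      · rw [abs_of_neg hx]; push_cast; ring
      · rw [abs_of_neg hz]; push_cast; ring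
  · have hz : 0 < x + -(9 * d) := (pos_iff_pos_of_mul_pos xz0).1 hx
    refine ⟨1, Or.inl rfl, ?_, ?_, fun n hn hns => ?_⟩
    · rw [abs_of_pos hx]; push_cast; ring
    · rw [abs_of_pos hz]; push_cast; ring
    · refine sign_mod4 hd8 h hy (m := m) (n := n) (c := c) ⟨M, hmM.symm⟩ hn ⟨C, hcC.symm⟩
        (by norm_num) ?_ ?_ hw hm hns hc
      · rw [abs_of_pos hx]; push_cast; ring
      · rw [abs_of_pos hz]; push_cast; ring

/-- **step A**. -/
theorem stepA (hsf : Squarefree d) (hd : d % 120 = 83 ∨ d % 120 = 107) (hR2 : R2 d)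
    {x y : ℚ} (h : y ^ 2 = x * (x + -(9 * d)) * (x + 16 * d)) (x0 : x ≠ 0)
    (z0 : x + -(9 * d) ≠ 0) (w0 : 0 < x + 16 * d) (xz0 : 0 < x * (x + -(9 * d))) :
    IsSquare |x + -(9 * d)| ∨ IsSquare (d * |x + -(9 * d)|) := by
  have hy : y ≠ 0 := by
    rintro rfl
    exact mul_ne_zero (mul_ne_zero x0 z0) w0.ne' (by rw [← h]; ring)
  have hd0 : (d : ℚ) ≠ 0 := by exact_mod_cast hsf.ne_zero
  obtain ⟨e, he, hex, hez, hmod⟩ := data hsf hd h x0 z0 w0 xz0
  have he2 : e * e = 1 := by rcases he with rfl | rfl <;> norm_num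
  have he2' : (e : ℚ) * e = 1 := by exact_mod_cast he2
  obtain ⟨n, N, hnN, hn, hqn⟩ := classD hsf z0 fun q hq hqd =>
    (parities hd h x0 z0 w0.ne' q hq hqd).2.1
  have hn4 := hmod n ⟨N, hnN.symm⟩ hn
  have hn0 : (n : ℚ) ≠ 0 := by
    have : n ≠ 0 := fun h0 => hsf.ne_zero (by rw [← hnN, h0, zero_mul])
    exact_mod_cast this
  have hnN' : (n : ℤ) * N = d := by exact_mod_cast hnN
  have hnNq : (n : ℚ) * N = d := by exact_mod_cast hnN
  have hab : (e * n) * (-(e * N)) = -(d : ℤ) := by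
    linear_combination (-(n : ℤ) * N) * he2 - hnN'
  have hb4 : (-(e * N)) % 4 = 1 := by
    have h1 : ((e * n) * (-(e * N))) % 4 = 1 := by rw [hab]; omega
    rw [Int.mul_emod, hn4] at h1
    omega
  have hdv : ∀ (q : ℕ) (k : ℤ) (j : ℕ), (k = e * j ∨ k = -(e * j)) → (q : ℤ) ∣ k → q ∣ j := by
    intro q k j hk hq
    have h1 : (q : ℤ) ∣ j := by
      rcases he with rfl | rfl <;> rcases hk with rfl | rfl
      · simpa using hq
      · simpa using hq
      · simpa using hq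
      · simpa using hq
    exact_mod_cast h1
  have H1 : ∀ q : ℕ, q.Prime → (q : ℤ) ∣ -(e * N) →
      IsSquare ((e * n : ℤ) : ZMod q) := by
    intro q hq hqb
    have : Fact q.Prime := ⟨hq⟩
    have hqN : q ∣ N := hdv q _ N (Or.inr rfl) hqb
    have hqd : q ∣ d := hnN ▸ hqN.mul_left n
    have hev : Even (padicValRat q (x + -(9 * d))) := by
      by_contra hodd
      exact not_dvd_both hsf hq hnN ((hqn q hq hqd).2 hodd) hqN
    have hloc := (locZ (five_lt hd hq hqd) hsf hqd h hy z0).1 hev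
    refine sq_transfer (b := 1) z0 ?_ one_ne_zero hloc
    rw [show (((e * n : ℤ)) : ℚ) * 1 ^ 2 * (x + -(9 * d)) = n * (e * (x + -(9 * d))) by
      push_cast; ring, hez]
    exact hn
  have H2 : ∀ q : ℕ, q.Prime → (q : ℤ) ∣ e * n →
      IsSquare ((-(e * N) : ℤ) : ZMod q) := by
    intro q hq hqa
    have : Fact q.Prime := ⟨hq⟩
    have hqn' : q ∣ n := hdv q _ n (Or.inl rfl) hqa
    have hqd : q ∣ d := hnN ▸ hqn'.mul_right N
    have hodd := (hqn q hq hqd).1 hqn'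
    have hloc := (locZ (five_lt hd hq hqd) hsf hqd h hy z0).2 hodd
    refine sq_transfer (b := n) (neg_ne_zero.2 (mul_ne_zero hd0 z0)) ?_ hn0 hloc
    have h2 : (((-(e * N) : ℤ)) : ℚ) * (n : ℚ) ^ 2 * (-(d * (x + -(9 * d)))) =
        d ^ 2 * (n * (e * (x + -(9 * d)))) := by
      push_cast
      linear_combination (e * n * d * (x + -(9 * (d : ℚ)))) * hnNq
    rw [h2, hez]
    exact (sqn' _).mul hn
  rcases hR2 (e * n) (-(e * N)) hab hn4 hb4 H1 H2 with h1 | h1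
  · left
    have h2 : n = 1 := by
      rcases he with rfl | rfl
      · have : (n : ℤ) = 1 := by linarith
        exact_mod_cast this
      · have : (n : ℤ) = -1 := by linarith
        omega
    rw [h2] at hn
    simpa using hn
  · right
    have h2 : N = 1 := by
      rcases he with rfl | rfl
      · have : (N : ℤ) = -1 := by linarith
        omega
      · have : (N : ℤ) = 1 := by linarith
        exact_mod_cast this
    have h3 : n = d := by rw [← hnN, h2, mul_one]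
    rw [h3] at hn
    exact hn

theorem good_sq (hd0 : d ≠ 0) {x y : ℚ} (hn : (ET d).toAffine.Nonsingular x y)
    (hx : IsSquare x) (hz : IsSquare (x + -(9 * d))) :
    GoodT d (Affine.Point.some x y hn) := by
  refine goodT_aux hn fun h n0 n1 w0 xz0 => ?_
  have hw : IsSquare (x + 16 * d) := by
    refine sq_div' (a := x) (b := x + -(9 * d)) ⟨y, ?_⟩ (hx.mul hz) (mul_ne_zero n0 n1)
    linear_combination -h
  obtain ⟨Q, hQ⟩ := halveT hd0 hn hx hz hw
  exact ⟨0, Q, nsmul_zero _, by rw [hQ, zero_add]⟩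

/-- **step B**. -/
theorem stepB (hsf : Squarefree d) (hd : d % 120 = 83 ∨ d % 120 = 107) (hR1 : R1 d)
    {x y : ℚ} (hn : (ET d).toAffine.Nonsingular x y) (hz : IsSquare |x + -(9 * d)|) :
    GoodT d (Affine.Point.some x y hn) := by
  refine goodT_aux hn fun h x0 z0 w0 xz0 => ?_
  have hy : y ≠ 0 := by
    rintro rfl
    exact mul_ne_zero (mul_ne_zero x0 z0) w0.ne' (by rw [← h]; ring)
  have hd0 : (d : ℚ) ≠ 0 := by exact_mod_cast hsf.ne_zero
  have hdp : (0 : ℚ) < d := by exact_mod_cast Nat.pos_of_ne_zero hsf.ne_zero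
  obtain ⟨e, he, hex, hez, hmod⟩ := data hsf hd h x0 z0 w0 xz0
  have he1 : e = 1 := by
    have := hmod 1 (one_dvd d) (by simpa using hz)
    rcases he with rfl | rfl
    · rfl
    · norm_num at this
  rw [he1, Int.cast_one, one_mul] at hex hez
  rw [← hez] at hz
  have hxp : 0 < x := by rw [hex]; exact abs_pos.2 x0
  obtain ⟨m, M, hmM, hm, hqm⟩ := classD hsf x0 fun q hq hqd =>
    (parities hd h x0 z0 w0.ne' q hq hqd).1
  rw [← hex] at hm
  have hm0 : (m : ℚ) ≠ 0 := by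
    have : m ≠ 0 := fun h0 => hsf.ne_zero (by rw [← hmM, h0, zero_mul])
    exact_mod_cast this
  have hmMq : (m : ℚ) * M = d := by exact_mod_cast hmM
  have H1 : ∀ q : ℕ, q.Prime → q ∣ M → IsSquare ((m : ℤ) : ZMod q) := by
    intro q hq hqM
    have : Fact q.Prime := ⟨hq⟩
    have hqd : q ∣ d := hmM ▸ hqM.mul_left m
    have hev : Even (padicValRat q x) := by
      by_contra hodd
      exact not_dvd_both hsf hq hmM ((hqm q hq hqd).2 hodd) hqM
    have hloc := (locX (five_lt hd hq hqd) hsf hqd h hy x0 z0 hz).1 hev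
    refine sq_transfer (b := 1) x0 ?_ one_ne_zero hloc
    rw [show (((m : ℤ)) : ℚ) * 1 ^ 2 * x = m * x by push_cast; ring]
    exact hm
  have H2 : ∀ q : ℕ, q.Prime → q ∣ m → IsSquare ((M : ℤ) : ZMod q) := by
    intro q hq hqm'
    have : Fact q.Prime := ⟨hq⟩
    have hqd : q ∣ d := hmM ▸ hqm'.mul_right M
    have hodd := (hqm q hq hqd).1 hqm'
    have hloc := (locX (five_lt hd hq hqd) hsf hqd h hy x0 z0 hz).2 hodd
    refine sq_transfer (b := m) (mul_ne_zero hd0 x0) ?_ hm0 hloc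
    have h2 : (((M : ℤ)) : ℚ) * (m : ℚ) ^ 2 * (d * x) = d ^ 2 * (m * x) := by
      push_cast
      linear_combination (m * d * x) * hmMq
    rw [h2]
    exact (sqn' _).mul hm
  rcases hR1 m M hmM H1 H2 with h1 | h1
  · rw [h1] at hm
    exact good_sq hsf.ne_zero hn (by simpa using hm) hz
  · -- `T = (9 d, 0)`
    have hmd : m = d := by rw [← hmM, h1, mul_one]
    rw [hmd] at hm
    have hw : IsSquare (d * (x + 16 * d)) := by
      refine sq_div' (a := d * x) (b := x + -(9 * d)) ⟨d * y, ?_⟩ (hm.mul hz)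
        (mul_ne_zero (mul_ne_zero hd0 x0) z0)
      linear_combination (-(d : ℚ) ^ 2) * h
    obtain ⟨x3, y3, hn3, hadd, hsq⟩ := add_point hn (nsT hsf.ne_zero (rt9 d))
      (fun hx => z0 (by rw [hx]; ring))
    refine goodT_of_sub (two_of_root (nsT hsf.ne_zero (rt9 d)) rfl) ?_
    rw [hadd]
    have s0 := hsq _ (rt0 d)
    have s16 := hsq _ (rt16 d)
    rw [sub_zero, sub_zero, sub_zero] at s0
    rw [sub_neg_eq_add, sub_neg_eq_add, sub_neg_eq_add] at s16
    have g0 : IsSquare x3 := by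
      refine sq_div' s0 ?_ (mul_ne_zero x0 (mul_ne_zero (by norm_num) hd0))
      have := hm.mul (sqn' 3)
      rw [show (d : ℚ) * x * 3 ^ 2 = x * (9 * d) by ring] at this
      exact this
    have g16 : IsSquare (x3 + 16 * d) := by
      refine sq_div' s16 ?_ (mul_ne_zero w0.ne' ?_)
      · have := hw.mul (sqn' 5)
        rw [show (d : ℚ) * (x + 16 * d) * 5 ^ 2 = (x + 16 * d) * (9 * d + 16 * d) by ring] at this
        exact this
      · rw [show 9 * (d : ℚ) + 16 * d = 25 * d by ring]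
        exact mul_ne_zero (by norm_num) hd0
    refine goodT_aux hn3 fun h' n0' n1' w0' _ => ?_
    refine good_sq hsf.ne_zero hn3 g0 ?_
    refine sq_div' (a := x3) (b := x3 + 16 * d) ⟨y3, ?_⟩ (g0.mul g16) (mul_ne_zero n0' w0'.ne')
    linear_combination -h'

theorem goodC (hsf : Squarefree d) (hd : d % 120 = 83 ∨ d % 120 = 107) (hR1 : R1 d)
    (hR2 : R2 d) (P : (ET d).toAffine.Point) : GoodT d P := by
  have hd0 : (d : ℚ) ≠ 0 := by exact_mod_cast hsf.ne_zero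
  have hdp : (0 : ℚ) < d := by exact_mod_cast Nat.pos_of_ne_zero hsf.ne_zero
  rcases P with _ | ⟨x, y, hn⟩
  · exact goodT_of_two (nsmul_zero _)
  refine goodT_aux hn fun h x0 z0 w0 xz0 => ?_
  rcases stepA hsf hd hR2 h x0 z0 w0 xz0 with hz | hz
  · exact stepB hsf hd hR1 hn hz
  · -- `T = (0, 0)`
    obtain ⟨x3, y3, hn3, hadd, hsq⟩ := add_point hn (nsT hsf.ne_zero (rt0 d)) x0
    refine goodT_of_sub (two_of_root (nsT hsf.ne_zero (rt0 d)) rfl) ?_
    rw [hadd]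
    have s9 := hsq _ (rt9 d)
    rw [sub_eq_add_neg, sub_eq_add_neg, sub_eq_add_neg] at s9
    refine stepB hsf hd hR1 hn3 (abs_tr s9 ?_ z0 ?_)
    · rw [zero_add, abs_neg, abs_of_pos (mul_pos (by norm_num : (0 : ℚ) < 9) hdp)]
      have := hz.mul (sqn' 3)
      rw [show (d : ℚ) * |x + -(9 * d)| * 3 ^ 2 = |x + -(9 * d)| * (9 * d) by ring] at this
      exact this
    · rw [zero_add]
      exact neg_ne_zero.2 (mul_ne_zero (by norm_num) hd0)

/-- **the twist has finitely many rational points, composite case.** -/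
theorem finite_ETC (hsf : Squarefree d) (hd : d % 120 = 83 ∨ d % 120 = 107) (hR1 : R1 d)
    (hR2 : R2 d) :
    {t : ℚ × ℚ | t.2 ^ 2 = t.1 ^ 3 - 7 * (-d) * t.1 ^ 2 - 144 * (-d) ^ 2 * t.1}.Finite := by
  have hd0 : (d : ℚ) ≠ 0 := by exact_mod_cast hsf.ne_zero
  refine (finite_rat (A := 7 * d) (B := -144 * d ^ 2)
    (mul_ne_zero (by norm_num) (pow_ne_zero 2 hd0)) ?_ (N := 2) (by norm_num)
    (goodC hsf hd hR1 hR2)).subset fun t ht => ?_
  · rw [show (7 * (d : ℚ)) ^ 2 - 4 * (-144 * d ^ 2) = 625 * d ^ 2 by ring]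
    exact mul_ne_zero (by norm_num) (pow_ne_zero 2 hd0)
  · have ht' : t.2 ^ 2 = t.1 ^ 3 - 7 * (-d) * t.1 ^ 2 - 144 * (-d) ^ 2 * t.1 := ht
    show t.2 ^ 2 = t.1 ^ 3 + 7 * d * t.1 ^ 2 + -144 * d ^ 2 * t.1
    linear_combination ht'

end Vale.Agent.P017.H766
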