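import Mathlib.NumberTheory.Height.EllipticCurve
import Mathlib.NumberTheory.Height.NumberField
import Mathlib.NumberTheory.Height.Northcott
import Mathlib.GroupTheory.Descent
import Mathlib.Tactic

/-! The naive height on the points of an elliptic curve over a number field, the lower bound for
the height of a double, and its consequences for torsion points. -/

namespace Vale.Agent.P017.H766

open WeierstrassCurve Height

section Group

variable {G : Type*} [AddCommGroup G] {h : G → ℝ} {c : ℝ}

/-- A sequence of halves lies in a finite set, so its members are torsion points. -/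
theorem torsion_of_halves [Northcott h] (H : ∀ x, 4 * h x - c ≤ h (2 • x)) (x : ℕ → G)
    (hx : ∀ k, x k = 2 • x (k + 1)) : IsOfFinAddOrder (x 0) := by
  set M : ℝ := max (h (x 0)) (c / 3) with hM
  have hb : ∀ k, h (x k) ≤ M := by
    intro k
    induction k with
    | zero => exact le_max_left _ _
    | succ k ih =>
      have h1 := H (x (k + 1))
      rw [← hx k] at h1
      have h2 : c / 3 ≤ M := le_max_right _ _
      linarith
  have hfin : ({y : G | h y ≤ M}).Finite := Northcott.finite_le M
  have hni : ¬ Function.Injective x := by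
    intro hi
    exact Set.infinite_range_of_injective hi (hfin.subset (by rintro _ ⟨k, rfl⟩; exact hb k))
  have hpow : ∀ i j, x i = 2 ^ j • x (i + j) := by
    intro i j
    induction j with
    | zero => simp
    | succ j ih =>
      rw [ih, hx (i + j), ← mul_smul, ← pow_succ, add_assoc]
  rw [Function.Injective] at hni
  push Not at hni
  obtain ⟨i, j, hij, hne⟩ := hni
  wlog hlt : i < j generalizing i j
  · exact this j i hij.symm hne.symm (lt_of_le_of_ne (not_lt.1 hlt) hne.symm)
  obtain ⟨k, rfl⟩ := Nat.exists_eq_add_of_lt hlt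
  have h1 := hpow i (k + 1)
  rw [← add_assoc, ← hij] at h1
  have h2 : IsOfFinAddOrder (x i) := by
    rw [isOfFinAddOrder_iff_nsmul_eq_zero]
    refine ⟨2 ^ (k + 1) - 1, ?_, ?_⟩
    · have : 2 ≤ 2 ^ (k + 1) := by
        calc 2 = 2 ^ 1 := rfl
          _ ≤ 2 ^ (k + 1) := Nat.pow_le_pow_right (by norm_num) (by omega)
      omega
    · have h3 : (2 ^ (k + 1) - 1) • x i + x i = 0 + x i := by
        rw [zero_add, ← succ_nsmul]
        have : 2 ^ (k + 1) - 1 + 1 = 2 ^ (k + 1) := Nat.sub_add_cancel Nat.one_le_two_pow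
        rw [this]
        exact h1.symm
      exact add_right_cancel h3
  have h0 := hpow 0 i
  rw [zero_add] at h0
  rw [h0]
  exact h2.nsmul

/-- If every element is a torsion element of order dividing `N` plus a double, every element is a
torsion element. -/
theorem torsion_of_descent [Northcott h] (H : ∀ x, 4 * h x - c ≤ h (2 • x)) {N : ℕ} (hN : N ≠ 0)
    (hd : ∀ P : G, ∃ T Q : G, N • T = 0 ∧ P = T + 2 • Q) (P : G) : IsOfFinAddOrder P := by
  choose T Q hT hP using hd
  let y : ℕ → G := fun k => Q^[k] P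
  have hy : ∀ k, y k = T (y k) + 2 • y (k + 1) := by
    intro k
    have : y (k + 1) = Q (y k) := Function.iterate_succ_apply' Q k P
    rw [this]
    exact hP (y k)
  have h1 := torsion_of_halves H (fun k => N • y k) (fun k => by
    show N • y k = 2 • (N • y (k + 1))
    conv_lhs => rw [hy k]
    rw [smul_add, hT, zero_add, smul_comm])
  have h2 : IsOfFinAddOrder (N • P) := h1
  rw [isOfFinAddOrder_iff_nsmul_eq_zero] at h2 ⊢
  obtain ⟨m, hm, hm0⟩ := h2
  refine ⟨m * N, Nat.mul_pos hm (Nat.pos_of_ne_zero hN), ?_⟩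
  rw [mul_smul]
  exact hm0

end Group

variable {K : Type*} [Field K]

/-- the naive height. -/
noncomputable def ht [AdmissibleAbsValues K] (W : WeierstrassCurve K) (P : W.toAffine.Point) : ℝ :=
  logHeight P.xRep

section

variable [AdmissibleAbsValues K] (W : WeierstrassCurve K)

theorem le_logHeight (x : K) : 2 * logHeight₁ x ≤ logHeight ![x ^ 2, 2 * x, 1] := by
  have h1 : (2 : ℝ) * logHeight₁ x = logHeight ![x ^ 2, 1] := by
    rw [← logHeight₁_eq_logHeight, logHeight₁_pow]; norm_num
  rw [h1]
  have h2 := logHeight_comp_le (![0, 2] : Fin 2 → Fin 3) ![x ^ 2, 2 * x, 1]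
  have h3 : (![x ^ 2, 2 * x, 1] : Fin 3 → K) ∘ (![0, 2] : Fin 2 → Fin 3) = ![x ^ 2, 1] := by
    funext i; fin_cases i <;> rfl
  rwa [h3] at h2

theorem ht_zero : ht W 0 = 0 := by
  unfold ht
  rw [Affine.Point.xRep_zero]
  rw [logHeight_swap]
  rw [← logHeight₁_eq_logHeight, logHeight₁_zero]

theorem ht_some {x y : K} (h : W.toAffine.Nonsingular x y) :
    ht W (Affine.Point.some x y h) = logHeight₁ x := by
  unfold ht
  rw [Affine.Point.xRep_some, ← logHeight₁_eq_logHeight]

omit [AdmissibleAbsValues K] in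
theorem eval_addSubMap (x : K) : (fun i => MvPolynomial.eval ![x ^ 2, 2 * x, 1] (addSubMap W i)) =
    ![x ^ 4 - W.b₄ * x ^ 2 - 2 * W.b₆ * x - W.b₈,
      4 * x ^ 3 + W.b₂ * x ^ 2 + 2 * W.b₄ * x + W.b₆, 0] := by
  funext i
  fin_cases i
  · simp [addSubMap]; ring
  · simp [addSubMap]; ring
  · simp [addSubMap]; ring

variable [DecidableEq K]

theorem ht_two (P : W.toAffine.Point) (hP : P ≠ 0) :
    ht W (2 • P) = logHeight (fun i =>
      MvPolynomial.eval ![(P.xRep 0) ^ 2, 2 * P.xRep 0, 1] (addSubMap W i)) := by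
  rw [eval_addSubMap, two_nsmul]
  rcases P with _ | ⟨x, y, h⟩
  · exact absurd rfl hP
  have hx : (Affine.Point.some x y h).xRep 0 = x := by rw [Affine.Point.xRep_some]; rfl
  rw [hx]
  have heq : y ^ 2 + W.a₁ * x * y + W.a₃ * y = x ^ 3 + W.a₂ * x ^ 2 + W.a₄ * x + W.a₆ :=
    (Affine.equation_iff ..).1 h.1
  have hpsi : 4 * x ^ 3 + W.b₂ * x ^ 2 + 2 * W.b₄ * x + W.b₆ = (2 * y + W.a₁ * x + W.a₃) ^ 2 := by
    unfold WeierstrassCurve.b₂ WeierstrassCurve.b₄ WeierstrassCurve.b₆
    linear_combination (-4 : K) * heq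
  by_cases hy : y = W.toAffine.negY x y
  · rw [Affine.Point.add_self_of_Y_eq hy, ht_zero]
    have h0 : 2 * y + W.a₁ * x + W.a₃ = 0 := by
      unfold Affine.negY at hy
      linear_combination hy
    rw [hpsi, h0]
    have e : ((0 : K) ^ 2) = 0 := by ring
    rw [e, logHeight_cons_cons_zero, logHeight_cons_cons_zero, logHeight_eq_zero_of_subsingleton]
  · have hne : 2 * y + W.a₁ * x + W.a₃ ≠ 0 := by
      intro h0
      apply hy
      unfold Affine.negY
      linear_combination h0
    rw [Affine.Point.add_self_of_Y_ne hy, ht_some, hpsi, logHeight_cons_cons_cons_zero,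
      ← logHeight₁_div_eq_logHeight]
    congr 1
    rw [Affine.slope_of_Y_ne rfl hy]
    have hd : y - W.toAffine.negY x y = 2 * y + W.a₁ * x + W.a₃ := by
      unfold Affine.negY; ring
    rw [hd]
    unfold Affine.addX WeierstrassCurve.b₄ WeierstrassCurve.b₆ WeierstrassCurve.b₈
    rw [eq_div_iff (pow_ne_zero 2 hne)]
    have hN : ∀ N D : K, D ≠ 0 → ((N / D) ^ 2 + W.a₁ * (N / D) - W.a₂ - x - x) * D ^ 2 =
        N ^ 2 + W.a₁ * N * D - (W.a₂ + 2 * x) * D ^ 2 := by
      intro N D hD
      field_simp
      ring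
    rw [hN _ _ hne]
    linear_combination (-(W.a₁ ^ 2 + 4 * W.a₂ + 8 * x)) * heq

/-- **the height of a double.** -/
theorem exists_two_le [W.IsElliptic] :
    ∃ c : ℝ, ∀ P : W.toAffine.Point, 4 * ht W P - c ≤ ht W (2 • P) := by
  obtain ⟨C, hC⟩ := abs_logHeight_addSubMap_sub_two_mul_logHeight_le W
  have hC0 : 0 ≤ C := (abs_nonneg _).trans (hC 0)
  refine ⟨C, fun P => ?_⟩
  by_cases hP : P = 0
  · rw [hP, smul_zero, ht_zero]; linarith
  rw [ht_two W P hP]
  have h1 := (abs_le.1 (hC ![(P.xRep 0) ^ 2, 2 * P.xRep 0, 1])).1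
  have h2 := le_logHeight (P.xRep 0)
  have h3 : ht W P = logHeight₁ (P.xRep 0) := by
    rcases P with _ | ⟨x, y, h⟩
    · exact absurd rfl hP
    · rw [ht_some, Affine.Point.xRep_some]; rfl
  rw [h3]
  linarith

omit [AdmissibleAbsValues K] [DecidableEq K] in
theorem finite_fiber (v : Fin 2 → K) : {P : W.toAffine.Point | P.xRep = v}.Finite := by
  by_cases h : ∃ P : W.toAffine.Point, P.xRep = v
  · obtain ⟨P, rfl⟩ := h
    refine ((Set.finite_singleton P).insert (-P)).subset fun Q hQ => ?_
    rcases Affine.Point.eq_or_eq_neg_of_xRep_eq_xRep hQ with h | h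
    · exact Or.inr h
    · exact Or.inl h
  · convert! Set.finite_empty
    ext P
    simp only [Set.mem_ofPred_eq, Set.mem_empty_iff_false, iff_false]
    exact fun hP => h ⟨P, hP⟩

omit [DecidableEq K] in
/-- **the Northcott property.** -/
theorem northcott [Northcott (logHeight₁ (K := K))] : Northcott (ht W) where
  finite_le B := by
    have h1 : ({x : K | logHeight₁ x ≤ B}).Finite := Northcott.finite_le B
    have h2 : (insert ![1, 0] ((fun x : K => ![x, 1]) '' {x : K | logHeight₁ x ≤ B})).Finite :=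
      (h1.image _).insert _
    refine (h2.biUnion fun v _ => finite_fiber W v).subset fun P hP => ?_
    simp only [Set.mem_iUnion, Set.mem_ofPred_eq, exists_prop, exists_eq_right']
    rcases P with _ | ⟨x, y, h⟩
    · exact Or.inl rfl
    · refine Or.inr ⟨x, ?_, ?_⟩
      · have : ht W (Affine.Point.some x y h) ≤ B := hP
        rwa [ht_some] at this
      · rw [Affine.Point.xRep_some]

end

section NF

variable [NumberField K] [DecidableEq K] (W : WeierstrassCurve K) [W.IsElliptic]

/-- **torsion is finite.** -/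
theorem finite_of_torsion (h : ∀ P : W.toAffine.Point, IsOfFinAddOrder P) :
    Finite W.toAffine.Point := by
  obtain ⟨c, hc⟩ := exists_two_le W
  have := northcott W
  have h1 := AddMonoid.finite_set_isOfFiniteOrder_of_descent (n := 2) (b := 4) (c₀ := c)
    (h := ht W) (by norm_num) hc
  have h2 : ({P : W.toAffine.Point | IsOfFinAddOrder P}) = Set.univ :=
    Set.eq_univ_of_forall h
  rw [h2] at h1
  exact Set.finite_univ_iff.1 h1

/-- **descent.** If every point is the sum of a torsion point of order dividing `N` and a double,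
every point is a torsion point. -/
theorem isOfFinAddOrder_of_descent {N : ℕ} (hN : N ≠ 0)
    (hd : ∀ P : W.toAffine.Point, ∃ T Q : W.toAffine.Point, N • T = 0 ∧ P = T + 2 • Q)
    (P : W.toAffine.Point) : IsOfFinAddOrder P := by
  obtain ⟨c, hc⟩ := exists_two_le W
  have := northcott W
  exact torsion_of_descent hc hN hd P

theorem finite_of_descent {N : ℕ} (hN : N ≠ 0)
    (hd : ∀ P : W.toAffine.Point, ∃ T Q : W.toAffine.Point, N • T = 0 ∧ P = T + 2 • Q) :
    Finite W.toAffine.Point :=
  finite_of_torsion W (isOfFinAddOrder_of_descent W hN hd)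

end NF

end Vale.Agent.P017.H766
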