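import Vale.Agent.P017.H766.Val

/-! Local analysis of `y ^ 2 = x (x + 9) (x - 16)` over `ℚ`. -/

namespace Vale.Agent.P017.H766

theorem int_sq {Y : ℚ} {N : ℤ} (h : Y ^ 2 = N) : ∃ Z : ℤ, Z ^ 2 = N := by
  have h1 : IsSquare ((N : ℚ)) := ⟨Y, by rw [← h]; ring⟩
  obtain ⟨Z, hZ⟩ := Rat.isSquare_intCast_iff.1 h1
  exact ⟨Z, by rw [hZ]; ring⟩

theorem cast3 {m : ℤ} (h : ¬ ((3 : ℕ) : ℤ) ∣ m) : (m : ZMod 3) ≠ 0 := fun h1 =>
  h ((ZMod.intCast_zmod_eq_zero_iff_dvd m 3).1 h1)

theorem cast8 {m : ℤ} (h : ¬ ((2 : ℕ) : ℤ) ∣ m) : 4 * (m : ZMod 8) ≠ 0 := fun h1 => by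
  have h2 : ((4 * m : ℤ) : ZMod 8) = 0 := by push_cast; exact h1
  have h3 := (ZMod.intCast_zmod_eq_zero_iff_dvd (4 * m) 8).1 h2
  apply h
  push_cast at h3 ⊢
  omega

theorem modA : ∀ m n Z : ZMod 3, m ≠ 0 → n ≠ 0 →
    Z ^ 2 ≠ m * n * (m + 3 * n) * (3 * m - 16 * n) := by decide
theorem modB : ∀ m n Z : ZMod 3, m ≠ 0 → n ≠ 0 →
    Z ^ 2 ≠ m * n * (m - 3 * n) * (3 * m - 25 * n) := by decide
theorem modC : ∀ m n Z : ZMod 8, 4 * m ≠ 0 → 4 * n ≠ 0 →
    Z ^ 2 ≠ m * n * (2 * m + 9 * n) * (m - 8 * n) := by decide +kernel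
theorem modD : ∀ m n Z : ZMod 8, 4 * m ≠ 0 → 4 * n ≠ 0 →
    Z ^ 2 ≠ m * n * (8 * m + 9 * n) * (m - 2 * n) := by decide +kernel

theorem pn {p q : ℕ} (hp : p.Prime) (hq : q.Prime) (h : p ≠ q) (k : ℕ) :
    padicValNat p (q ^ k) = 0 :=
  padicValNat.eq_zero_of_not_dvd fun h1 =>
    h ((Nat.prime_dvd_prime_iff_eq hp hq).1 (hp.dvd_of_dvd_pow h1))

theorem vr {p n k : ℕ} (h : padicValNat p n = k) : padicValRat p (n : ℚ) = k := by
  rw [padicValRat.of_nat, h]

theorem vneg {p : ℕ} {a : ℚ} {k : ℤ} (h : padicValRat p a = k) : padicValRat p (-a) = k := by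
  rw [padicValRat.neg, h]

theorem even_x {x y : ℚ} (h : y ^ 2 = x * (x + 9) * (x + -16)) (hx : x ≠ 0) (hc : x + 9 ≠ 0)
    (hd : x + -16 ≠ 0) (p : ℕ) (hp : p.Prime) : Even (padicValRat p x) := by
  have : Fact p.Prime := ⟨hp⟩
  by_cases h3 : p = 3
  · subst h3
    have v9 : padicValRat 3 (9 : ℚ) = 2 := by
      have := vr (p := 3) (n := 3 ^ 2) (k := 2) (padicValNat.prime_pow _)
      norm_num at this; exact this
    have v16 : padicValRat 3 (-16 : ℚ) = 0 := by
      have := vr (p := 3) (n := 2 ^ 4) (k := 0) (pn hp Nat.prime_two (by norm_num) 4)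
      norm_num at this; exact vneg this
    rcases lt_trichotomy (padicValRat 3 x) 0 with h0 | h0 | h0
    · exact even_of_lt hx (by norm_num) (by norm_num) hc hd h (by omega) (by omega)
    · rw [h0]; exact Even.zero
    · by_cases h1 : padicValRat 3 x = 1
      · exfalso
        obtain ⟨m, n, hm, hn, hn0, hxm⟩ := exists_int_of_val (p := 3) hx (k := 1) h1
        have hn0' : (n : ℚ) ≠ 0 := by exact_mod_cast hn0
        have h4 : (y * n ^ 2 / 3) ^ 2 =
            ((m * n * (m + 3 * n) * (3 * m - 16 * n) : ℤ) : ℚ) := by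
          have : (y * n ^ 2 / 3) ^ 2 = y ^ 2 * n ^ 4 / 9 := by ring
          rw [this, h, hxm]
          push_cast
          field_simp
          ring
        obtain ⟨Z, hZ⟩ := int_sq h4
        have h5 := congrArg (Int.cast : ℤ → ZMod 3) hZ
        push_cast at h5
        exact modA _ _ _ (cast3 hm) (cast3 hn) h5
      · by_cases h2 : padicValRat 3 x = 2
        · rw [h2]; exact ⟨1, rfl⟩
        · have := even_of_gt (p := 3) hx (by norm_num) (by norm_num) hc hd h (by omega) (by omega)
          rw [v9, v16] at this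
          rw [Int.even_iff] at this ⊢
          omega
  · have v9 : padicValRat p (9 : ℚ) = 0 := by
      have := vr (p := p) (n := 3 ^ 2) (k := 0) (pn hp Nat.prime_three h3 2)
      norm_num at this; exact this
    by_cases h2 : p = 2
    · subst h2
      have v16 : padicValRat 2 (-16 : ℚ) = 4 := by
        have := vr (p := 2) (n := 2 ^ 4) (k := 4) (padicValNat.prime_pow _)
        norm_num at this; exact vneg this
      rcases lt_trichotomy (padicValRat 2 x) 0 with h0 | h0 | h0
      · exact even_of_lt hx (by norm_num) (by norm_num) hc hd h (by omega) (by omega)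
      · rw [h0]; exact Even.zero
      · by_cases h1 : padicValRat 2 x = 1
        · exfalso
          obtain ⟨m, n, hm, hn, hn0, hxm⟩ := exists_int_of_val (p := 2) hx (k := 1) h1
          have hn0' : (n : ℚ) ≠ 0 := by exact_mod_cast hn0
          have h4 : (y * n ^ 2 / 2) ^ 2 =
              ((m * n * (2 * m + 9 * n) * (m - 8 * n) : ℤ) : ℚ) := by
            have : (y * n ^ 2 / 2) ^ 2 = y ^ 2 * n ^ 4 / 4 := by ring
            rw [this, h, hxm]
            push_cast
            field_simp
            ring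
          obtain ⟨Z, hZ⟩ := int_sq h4
          have h5 := congrArg (Int.cast : ℤ → ZMod 8) hZ
          push_cast at h5
          exact modC _ _ _ (cast8 hm) (cast8 hn) h5
        · by_cases h3' : padicValRat 2 x = 3
          · exfalso
            obtain ⟨m, n, hm, hn, hn0, hxm⟩ := exists_int_of_val (p := 2) hx (k := 3) h3'
            have hn0' : (n : ℚ) ≠ 0 := by exact_mod_cast hn0
            have h4 : (y * n ^ 2 / 8) ^ 2 =
                ((m * n * (8 * m + 9 * n) * (m - 2 * n) : ℤ) : ℚ) := by
              have : (y * n ^ 2 / 8) ^ 2 = y ^ 2 * n ^ 4 / 64 := by ring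
              rw [this, h, hxm]
              push_cast
              field_simp
              ring
            obtain ⟨Z, hZ⟩ := int_sq h4
            have h5 := congrArg (Int.cast : ℤ → ZMod 8) hZ
            push_cast at h5
            exact modD _ _ _ (cast8 hm) (cast8 hn) h5
          · by_cases h4 : padicValRat 2 x ≤ 4
            · rw [Int.even_iff]; omega
            · have := even_of_gt (p := 2) hx (by norm_num) (by norm_num) hc hd h
                (by omega) (by omega)
              rw [v9, v16] at this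
              rw [Int.even_iff] at this ⊢
              omega
    · have v16 : padicValRat p (-16 : ℚ) = 0 := by
        have := vr (p := p) (n := 2 ^ 4) (k := 0) (pn hp Nat.prime_two h2 4)
        norm_num at this; exact vneg this
      rcases lt_trichotomy (padicValRat p x) 0 with h0 | h0 | h0
      · exact even_of_lt hx (by norm_num) (by norm_num) hc hd h (by omega) (by omega)
      · rw [h0]; exact Even.zero
      · have := even_of_gt (p := p) hx (by norm_num) (by norm_num) hc hd h (by omega) (by omega)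
        rw [v9, v16] at this
        simpa using this

theorem even_z {x y : ℚ} (h : y ^ 2 = x * (x + -9) * (x + -25)) (hx : x ≠ 0) (hc : x + -9 ≠ 0)
    (hd : x + -25 ≠ 0) (p : ℕ) (hp : p.Prime) (h5 : p ≠ 5) : Even (padicValRat p x) := by
  have : Fact p.Prime := ⟨hp⟩
  have v25 : padicValRat p (-25 : ℚ) = 0 := by
    have := vr (p := p) (n := 5 ^ 2) (k := 0) (pn hp Nat.prime_five h5 2)
    norm_num at this; exact vneg this
  by_cases h3 : p = 3
  · subst h3
    have v9 : padicValRat 3 (-9 : ℚ) = 2 := by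
      have := vr (p := 3) (n := 3 ^ 2) (k := 2) (padicValNat.prime_pow _)
      norm_num at this; exact vneg this
    rcases lt_trichotomy (padicValRat 3 x) 0 with h0 | h0 | h0
    · exact even_of_lt hx (by norm_num) (by norm_num) hc hd h (by omega) (by omega)
    · rw [h0]; exact Even.zero
    · by_cases h1 : padicValRat 3 x = 1
      · exfalso
        obtain ⟨m, n, hm, hn, hn0, hxm⟩ := exists_int_of_val (p := 3) hx (k := 1) h1
        have hn0' : (n : ℚ) ≠ 0 := by exact_mod_cast hn0
        have h4 : (y * n ^ 2 / 3) ^ 2 =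
            ((m * n * (m - 3 * n) * (3 * m - 25 * n) : ℤ) : ℚ) := by
          have : (y * n ^ 2 / 3) ^ 2 = y ^ 2 * n ^ 4 / 9 := by ring
          rw [this, h, hxm]
          push_cast
          field_simp
          ring
        obtain ⟨Z, hZ⟩ := int_sq h4
        have h5 := congrArg (Int.cast : ℤ → ZMod 3) hZ
        push_cast at h5
        exact modB _ _ _ (cast3 hm) (cast3 hn) h5
      · by_cases h2 : padicValRat 3 x = 2
        · rw [h2]; exact ⟨1, rfl⟩
        · have := even_of_gt (p := 3) hx (by norm_num) (by norm_num) hc hd h (by omega) (by omega)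
          rw [v9, v25] at this
          rw [Int.even_iff] at this ⊢
          omega
  · have v9 : padicValRat p (-9 : ℚ) = 0 := by
      have := vr (p := p) (n := 3 ^ 2) (k := 0) (pn hp Nat.prime_three h3 2)
      norm_num at this; exact vneg this
    rcases lt_trichotomy (padicValRat p x) 0 with h0 | h0 | h0
    · exact even_of_lt hx (by norm_num) (by norm_num) hc hd h (by omega) (by omega)
    · rw [h0]; exact Even.zero
    · have := even_of_gt (p := p) hx (by norm_num) (by norm_num) hc hd h (by omega) (by omega)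
      rw [v9, v25] at this
      simpa using this

end Vale.Agent.P017.H766
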