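import Mathlib

/-! Local analysis of `y ^ 2 = x (x - 9 D) (x + 16 D)` at a prime `q > 5` dividing `D` once. -/

namespace Vale.Agent.P017.H766

variable {q : ℕ} [hqf : Fact q.Prime]

theorem near_sq (hq2 : q ≠ 2) {u : ℚ_[q]} (h : ‖u - 1‖ < 1) : IsSquare u := by
  have hu : ‖u‖ ≤ 1 := by
    have h1 : u = (u - 1) + 1 := by ring
    rw [h1]
    exact (Padic.nonarchimedean _ _).trans (max_le h.le (by simp))
  have h2 : ‖(2 : ℤ_[q])‖ = 1 := by
    have h3 : ¬ ‖((2 : ℤ) : ℤ_[q])‖ < 1 := by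
      rw [PadicInt.norm_int_lt_one_iff_dvd]
      intro hd
      have h4 : q ∣ 2 := by exact_mod_cast hd
      exact hq2 ((Nat.prime_dvd_prime_iff_eq hqf.out Nat.prime_two).1 h4)
    have h5 : ‖((2 : ℤ) : ℤ_[q])‖ ≤ 1 := PadicInt.norm_le_one _
    have h6 : ‖((2 : ℤ) : ℤ_[q])‖ = 1 := le_antisymm h5 (not_lt.1 h3)
    simpa using h6
  obtain ⟨U, hU⟩ : ∃ U : ℤ_[q], (U : ℚ_[q]) = u := ⟨⟨u, hu⟩, rfl⟩
  have h3 : ‖U - 1‖ < 1 := by
    have : ‖((U - 1 : ℤ_[q]) : ℚ_[q])‖ < 1 := by
      rw [PadicInt.coe_sub, hU, PadicInt.coe_one]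
      exact h
    exact this
  obtain ⟨z, hz, -⟩ := hensels_lemma (F := Polynomial.X ^ 2 - Polynomial.C U)
    (a := 1) (by
      have e1 : Polynomial.aeval (1 : ℤ_[q])
          (Polynomial.X ^ 2 - Polynomial.C U) = 1 - U := by simp
      have e2 : Polynomial.aeval (1 : ℤ_[q]) (Polynomial.derivative
          (Polynomial.X ^ 2 - Polynomial.C U)) = 2 := by simp; norm_num
      rw [e1, e2, h2, one_pow, norm_sub_rev]
      exact h3)
  have h3 : z ^ 2 = U := by
    have := hz
    simp only [map_sub, map_pow, Polynomial.aeval_X, Polynomial.aeval_C] at this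
    exact sub_eq_zero.1 this
  refine ⟨z, ?_⟩
  rw [← hU, ← h3, sq, PadicInt.coe_mul]

theorem norm_one_of_not_dvd {k : ℕ} (h : ¬ q ∣ k) : ‖(k : ℚ_[q])‖ = 1 :=
  Padic.norm_natCast_eq_one_iff.2 ((Nat.Prime.coprime_iff_not_dvd hqf.out).2 h)

theorem sq_int {a : ℤ} (h : IsSquare (a : ℚ_[q])) :
    IsSquare (a : ZMod q) := by
  obtain ⟨s, hs⟩ := h
  have h1 : ‖(a : ℚ_[q])‖ ≤ 1 := Padic.norm_int_le_one _
  have h3 : ‖s‖ ≤ 1 := by
    rw [hs, norm_mul] at h1
    by_contra hlt
    push Not at hlt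
    nlinarith
  obtain ⟨S, hS⟩ : ∃ S : ℤ_[q], (S : ℚ_[q]) = s := ⟨⟨s, h3⟩, rfl⟩
  have h4 : (a : ℤ_[q]) = S * S := by
    apply Subtype.ext
    show ((a : ℤ_[q]) : ℚ_[q]) = ((S * S : ℤ_[q]) : ℚ_[q])
    rw [PadicInt.coe_mul, hS, PadicInt.coe_intCast]
    exact hs
  have h5 := congrArg (PadicInt.toZMod) h4
  rw [map_mul, map_intCast] at h5
  exact ⟨_, h5⟩

/-- **local analysis.** -/
theorem loc (hq : 5 < q) {D : ℚ_[q]} (hD : ‖D‖ = (q : ℝ)⁻¹) {x y : ℚ_[q]}
    (h : y ^ 2 = x * (x - 9 * D) * (x + 16 * D)) (hy : y ≠ 0) :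
    (IsSquare x ∧ IsSquare (x - 9 * D)) ∨ (IsSquare (-x) ∧ IsSquare (-(D * (x - 9 * D)))) ∨
    (IsSquare (D * x) ∧ IsSquare (x - 9 * D)) ∨
    (IsSquare (-(D * x)) ∧ IsSquare (-(D * (x - 9 * D)))) := by
  have hq2 : q ≠ 2 := by omega
  have hq0 : (0 : ℝ) < q := by exact_mod_cast (Fact.out : q.Prime).pos
  have hDpos : 0 < ‖D‖ := by rw [hD]; positivity
  have hD0 : D ≠ 0 := norm_pos_iff.1 hDpos
  have n9 : ‖(9 : ℚ_[q])‖ = 1 := by
    have := norm_one_of_not_dvd (q := q) (k := 3 ^ 2) (fun hd => by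
      have h1 := (Nat.prime_dvd_prime_iff_eq hqf.out Nat.prime_three).1 (hqf.out.dvd_of_dvd_pow hd)
      omega)
    norm_num at this; exact this
  have n16 : ‖(16 : ℚ_[q])‖ = 1 := by
    have := norm_one_of_not_dvd (q := q) (k := 2 ^ 4) (fun hd => by
      have h1 := (Nat.prime_dvd_prime_iff_eq hqf.out Nat.prime_two).1 (hqf.out.dvd_of_dvd_pow hd)
      omega)
    norm_num at this; exact this
  have n25 : ‖(25 : ℚ_[q])‖ = 1 := by
    have := norm_one_of_not_dvd (q := q) (k := 5 ^ 2) (fun hd => by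
      have h1 := (Nat.prime_dvd_prime_iff_eq hqf.out Nat.prime_five).1 (hqf.out.dvd_of_dvd_pow hd)
      omega)
    norm_num at this; exact this
  have h90 : (9 : ℚ_[q]) ≠ 0 := norm_pos_iff.1 (by rw [n9]; norm_num)
  have h160 : (16 : ℚ_[q]) ≠ 0 := norm_pos_iff.1 (by rw [n16]; norm_num)
  have h250 : (25 : ℚ_[q]) ≠ 0 := norm_pos_iff.1 (by rw [n25]; norm_num)
  have hne : x * (x - 9 * D) * (x + 16 * D) ≠ 0 := by rw [← h]; exact pow_ne_zero 2 hy
  have x0 : x ≠ 0 := left_ne_zero_of_mul (left_ne_zero_of_mul hne)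
  have z0 : x - 9 * D ≠ 0 := right_ne_zero_of_mul (left_ne_zero_of_mul hne)
  have w0 : x + 16 * D ≠ 0 := right_ne_zero_of_mul hne
  -- a square from a quotient of small norm
  have key : ∀ a b : ℚ_[q], b ≠ 0 → ‖a‖ < ‖b‖ → IsSquare (1 + a / b) := by
    intro a b hb hab
    apply near_sq hq2
    rw [add_sub_cancel_left, norm_div]
    exact (div_lt_one (norm_pos_iff.2 hb)).2 hab
  have sqq : ∀ a : ℚ_[q], IsSquare (a ^ 2) := fun a => ⟨a, sq a⟩
  rcases lt_trichotomy ‖D‖ ‖x‖ with hc | hc | hc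
  · left
    have u1 := key (-(9 * D)) x x0 (by rw [norm_neg, norm_mul, n9, one_mul]; exact hc)
    have u2 := key (16 * D) x x0 (by rw [norm_mul, n16, one_mul]; exact hc)
    have e1 : x - 9 * D = x * (1 + -(9 * D) / x) := by field_simp; ring
    have e2 : x + 16 * D = x * (1 + 16 * D / x) := by field_simp
    have v1 : 1 + -(9 * D) / x ≠ 0 := fun h1 => z0 (by rw [e1, h1, mul_zero])
    have v2 : 1 + 16 * D / x ≠ 0 := fun h1 => w0 (by rw [e2, h1, mul_zero])
    have hx : IsSquare x := by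
      have : x = (y / x) ^ 2 / ((1 + -(9 * D) / x) * (1 + 16 * D / x)) := by
        rw [eq_div_iff (mul_ne_zero v1 v2), div_pow, h, e1, e2]
        field_simp
      rw [this]
      exact (sqq _).div (u1.mul u2)
    exact ⟨hx, by rw [e1]; exact hx.mul u1⟩
  · right; right
    by_cases hz : ‖x - 9 * D‖ < ‖D‖
    · left
      have u1 := key (x - 9 * D) (9 * D) (mul_ne_zero h90 hD0)
        (by rw [norm_mul 9 D, n9, one_mul]; exact hz)
      have u2 := key (x - 9 * D) (25 * D) (mul_ne_zero h250 hD0)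
        (by rw [norm_mul 25 D, n25, one_mul]; exact hz)
      have e1 : x = 9 * D * (1 + (x - 9 * D) / (9 * D)) := by field_simp; ring
      have e2 : x + 16 * D = 25 * D * (1 + (x - 9 * D) / (25 * D)) := by field_simp; ring
      have g1 : IsSquare (D * x) := by
        have : D * x = (3 * D) ^ 2 * (1 + (x - 9 * D) / (9 * D)) := by
          linear_combination D * e1
        rw [this]
        exact (sqq _).mul u1
      have g2 : IsSquare (D * (x + 16 * D)) := by
        have : D * (x + 16 * D) = (5 * D) ^ 2 * (1 + (x - 9 * D) / (25 * D)) := by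
          linear_combination D * e2
        rw [this]
        exact (sqq _).mul u2
      refine ⟨g1, ?_⟩
      have : x - 9 * D = (D * y) ^ 2 / ((D * x) * (D * (x + 16 * D))) := by
        rw [eq_div_iff (mul_ne_zero (mul_ne_zero hD0 x0) (mul_ne_zero hD0 w0)), mul_pow, h]
        ring
      rw [this]
      exact (sqq _).div (g1.mul g2)
    · right
      have hw : ‖x + 16 * D‖ < ‖D‖ := by
        by_contra hw
        push Not at hz hw
        have hz' : ‖x - 9 * D‖ = ‖D‖ := by
          refine le_antisymm ?_ hz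
          rw [sub_eq_add_neg]
          refine (Padic.nonarchimedean _ _).trans (max_le hc.ge ?_)
          rw [norm_neg, norm_mul, n9, one_mul]
        have hw' : ‖x + 16 * D‖ = ‖D‖ := by
          refine le_antisymm ?_ hw
          refine (Padic.nonarchimedean _ _).trans (max_le hc.ge ?_)
          rw [norm_mul, n16, one_mul]
        have h1 := congrArg norm h
        rw [norm_pow, norm_mul, norm_mul, hz', hw', ← hc, hD,
          Padic.norm_eq_zpow_neg_valuation hy] at h1
        have h2 : ((q : ℝ) ^ (-y.valuation)) ^ 2 = (q : ℝ) ^ (-y.valuation * 2) := by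
          rw [zpow_mul]; norm_cast
        have h3 : (q : ℝ)⁻¹ * (q : ℝ)⁻¹ * (q : ℝ)⁻¹ = (q : ℝ) ^ (-3 : ℤ) := by
          rw [zpow_neg]; norm_num; ring
        rw [h2, h3] at h1
        have h4 := zpow_right_injective₀ hq0 (by
          have : (1 : ℝ) < q := by exact_mod_cast (Fact.out : q.Prime).one_lt
          exact this.ne') h1
        omega
      have u1 := key (-(x + 16 * D)) (16 * D) (mul_ne_zero h160 hD0)
        (by rw [norm_neg, norm_mul 16 D, n16, one_mul]; exact hw)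
      have u2 := key (-(x + 16 * D)) (25 * D) (mul_ne_zero h250 hD0)
        (by rw [norm_neg, norm_mul 25 D, n25, one_mul]; exact hw)
      constructor
      · have : -(D * x) = (4 * D) ^ 2 * (1 + -(x + 16 * D) / (16 * D)) := by
          field_simp; ring
        rw [this]
        exact (sqq _).mul u1
      · have : -(D * (x - 9 * D)) = (5 * D) ^ 2 * (1 + -(x + 16 * D) / (25 * D)) := by
          field_simp; ring
        rw [this]
        exact (sqq _).mul u2
  · right; left
    have u1 := key (-x) (9 * D) (mul_ne_zero h90 hD0)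
      (by rw [norm_neg, norm_mul, n9, one_mul]; exact hc)
    have u2 := key x (16 * D) (mul_ne_zero h160 hD0)
      (by rw [norm_mul, n16, one_mul]; exact hc)
    have g1 : IsSquare (-(D * (x - 9 * D))) := by
      have : -(D * (x - 9 * D)) = (3 * D) ^ 2 * (1 + -x / (9 * D)) := by
        field_simp; ring
      rw [this]
      exact (sqq _).mul u1
    have g2 : IsSquare (D * (x + 16 * D)) := by
      have : D * (x + 16 * D) = (4 * D) ^ 2 * (1 + x / (16 * D)) := by
        field_simp; ring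
      rw [this]
      exact (sqq _).mul u2
    refine ⟨?_, g1⟩
    have : -x = (D * y) ^ 2 / ((-(D * (x - 9 * D))) * (D * (x + 16 * D))) := by
      rw [eq_div_iff (mul_ne_zero (neg_ne_zero.2 (mul_ne_zero hD0 z0)) (mul_ne_zero hD0 w0)),
        mul_pow, h]
      ring
    rw [this]
    exact (sqq _).div (g1.mul g2)

end Vale.Agent.P017.H766
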