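import Vale.Agent.P017.H766.Loc

/-! Local analysis of the twist `y ^ 2 = x (x - 9 d) (x + 16 d)` over `ℚ`, `d = 3 mod 8`,
`d = 2 mod 3`, `d = 2, 3 mod 5`. -/

namespace Vale.Agent.P017.H766

theorem v_other {q r d : ℕ} (k : ℕ) (hq : q.Prime) (hr : r.Prime) (h : q ≠ r) (hd : ¬ q ∣ d)
    (hd0 : d ≠ 0) : padicValRat q ((r ^ k * d : ℕ) : ℚ) = 0 := by
  have : Fact q.Prime := ⟨hq⟩
  have := vr (p := q) (n := r ^ k * d) (k := 0) (by
    rw [padicValNat.mul (pow_ne_zero k hr.ne_zero) hd0, pn hq hr h k,
      padicValNat.eq_zero_of_not_dvd hd])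
  exact_mod_cast this

theorem v_self {q d : ℕ} (k : ℕ) (hq : q.Prime) (hd : ¬ q ∣ d)
    (hd0 : d ≠ 0) : padicValRat q ((q ^ k * d : ℕ) : ℚ) = k := by
  have : Fact q.Prime := ⟨hq⟩
  exact vr (p := q) (n := q ^ k * d) (k := k) (by
    rw [padicValNat.mul (pow_ne_zero k hq.ne_zero) hd0, padicValNat.prime_pow,
      padicValNat.eq_zero_of_not_dvd hd, add_zero])

theorem tA : ∀ m n Z : ZMod 3, m ≠ 0 → n ≠ 0 →
    Z ^ 2 ≠ m * n * (m - 3 * 2 * n) * (3 * m + 16 * 2 * n) := by decide
theorem tB : ∀ m n Z : ZMod 3, m ≠ 0 → n ≠ 0 →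
    Z ^ 2 ≠ m * n * (m + 3 * 2 * n) * (3 * m + 25 * 2 * n) := by decide
theorem tC : ∀ m n Z : ZMod 8, 4 * m ≠ 0 → 4 * n ≠ 0 →
    Z ^ 2 ≠ m * n * (2 * m - 9 * 3 * n) * (m + 8 * 3 * n) := by decide +kernel
theorem tD : ∀ m n Z : ZMod 8, 4 * m ≠ 0 → 4 * n ≠ 0 →
    Z ^ 2 ≠ m * n * (8 * m - 9 * 3 * n) * (m + 2 * 3 * n) := by decide +kernel
theorem tE2 : ∀ m n Z : ZMod 5, m ≠ 0 → n ≠ 0 →
    Z ^ 2 ≠ m * n * (5 * m + 9 * 2 * n) * (m + 5 * 2 * n) := by decide
theorem tE3 : ∀ m n Z : ZMod 5, m ≠ 0 → n ≠ 0 →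
    Z ^ 2 ≠ m * n * (5 * m + 9 * 3 * n) * (m + 5 * 3 * n) := by decide

theorem cast5 {m : ℤ} (h : ¬ ((5 : ℕ) : ℤ) ∣ m) : (m : ZMod 5) ≠ 0 := fun h1 =>
  h ((ZMod.intCast_zmod_eq_zero_iff_dvd m 5).1 h1)

variable {d : ℕ}

theorem not3 (h3 : (d : ZMod 3) = 2) : ¬ 3 ∣ d := fun h => by
  rw [(ZMod.natCast_eq_zero_iff d 3).2 h] at h3
  exact absurd h3 (by decide)
theorem not2 (h8 : (d : ZMod 8) = 3) : ¬ 2 ∣ d := fun h => by
  obtain ⟨k, rfl⟩ := h
  push_cast at h8
  exact absurd h8 ((by decide : ∀ k : ZMod 8, ¬ 2 * k = 3) k)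
theorem not5 (h5 : (d : ZMod 5) = 2 ∨ (d : ZMod 5) = 3) : ¬ 5 ∣ d := fun h => by
  rw [(ZMod.natCast_eq_zero_iff d 5).2 h] at h5
  exact absurd h5 (by decide)

theorem tw_even_x {x y : ℚ} (h3 : (d : ZMod 3) = 2) (h8 : (d : ZMod 8) = 3)
    (h : y ^ 2 = x * (x + -(9 * d)) * (x + 16 * d)) (hx : x ≠ 0) (hc : x + -(9 * d) ≠ 0)
    (hd : x + 16 * d ≠ 0) (q : ℕ) (hq : q.Prime) (hqd : ¬ q ∣ d) : Even (padicValRat q x) := by
  have : Fact q.Prime := ⟨hq⟩
  have hd0 : d ≠ 0 := fun h0 => hqd (h0 ▸ dvd_zero q)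
  have hd0' : (d : ℚ) ≠ 0 := by exact_mod_cast hd0
  have c0 : -(9 * (d : ℚ)) ≠ 0 := neg_ne_zero.2 (mul_ne_zero (by norm_num) hd0')
  have e0 : 16 * (d : ℚ) ≠ 0 := mul_ne_zero (by norm_num) hd0'
  by_cases hq3 : q = 3
  · subst hq3
    have v9 : padicValRat 3 (-(9 * (d : ℚ))) = 2 := by
      have := v_self 2 hq hqd hd0
      push_cast at this; norm_num at this; exact vneg this
    have v16 : padicValRat 3 (16 * (d : ℚ)) = 0 := by
      have := v_other 4 hq Nat.prime_two (by norm_num) hqd hd0
      push_cast at this; norm_num at this; exact this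
    rcases lt_trichotomy (padicValRat 3 x) 0 with h0 | h0 | h0
    · exact even_of_lt hx c0 e0 hc hd h (by omega) (by omega)
    · rw [h0]; exact Even.zero
    · by_cases h1 : padicValRat 3 x = 1
      · exfalso
        obtain ⟨m, n, hm, hn, hn0, hxm⟩ := exists_int_of_val (p := 3) hx (k := 1) h1
        have hn0' : (n : ℚ) ≠ 0 := by exact_mod_cast hn0
        have h4 : (y * n ^ 2 / 3) ^ 2 =
            ((m * n * (m - 3 * d * n) * (3 * m + 16 * d * n) : ℤ) : ℚ) := by
          have : (y * n ^ 2 / 3) ^ 2 = y ^ 2 * n ^ 4 / 9 := by ring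
          rw [this, h, hxm]
          push_cast
          field_simp
          ring
        obtain ⟨Z, hZ⟩ := int_sq h4
        have h5 := congrArg (Int.cast : ℤ → ZMod 3) hZ
        push_cast at h5
        rw [h3] at h5
        exact tA _ _ _ (cast3 hm) (cast3 hn) h5
      · by_cases h2 : padicValRat 3 x = 2
        · rw [h2]; exact ⟨1, rfl⟩
        · have := even_of_gt (p := 3) hx c0 e0 hc hd h (by omega) (by omega)
          rw [v9, v16] at this
          rw [Int.even_iff] at this ⊢
          omega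
  · have v9 : padicValRat q (-(9 * (d : ℚ))) = 0 := by
      have := v_other 2 hq Nat.prime_three hq3 hqd hd0
      push_cast at this; norm_num at this; exact vneg this
    by_cases h2 : q = 2
    · subst h2
      have v16 : padicValRat 2 (16 * (d : ℚ)) = 4 := by
        have := v_self 4 hq hqd hd0
        push_cast at this; norm_num at this; exact this
      rcases lt_trichotomy (padicValRat 2 x) 0 with h0 | h0 | h0
      · exact even_of_lt hx c0 e0 hc hd h (by omega) (by omega)
      · rw [h0]; exact Even.zero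
      · by_cases h1 : padicValRat 2 x = 1
        · exfalso
          obtain ⟨m, n, hm, hn, hn0, hxm⟩ := exists_int_of_val (p := 2) hx (k := 1) h1
          have hn0' : (n : ℚ) ≠ 0 := by exact_mod_cast hn0
          have h4 : (y * n ^ 2 / 2) ^ 2 =
              ((m * n * (2 * m - 9 * d * n) * (m + 8 * d * n) : ℤ) : ℚ) := by
            have : (y * n ^ 2 / 2) ^ 2 = y ^ 2 * n ^ 4 / 4 := by ring
            rw [this, h, hxm]
            push_cast
            field_simp
            ring
          obtain ⟨Z, hZ⟩ := int_sq h4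
          have h5 := congrArg (Int.cast : ℤ → ZMod 8) hZ
          push_cast at h5
          rw [h8] at h5
          exact tC _ _ _ (cast8 hm) (cast8 hn) h5
        · by_cases h3' : padicValRat 2 x = 3
          · exfalso
            obtain ⟨m, n, hm, hn, hn0, hxm⟩ := exists_int_of_val (p := 2) hx (k := 3) h3'
            have hn0' : (n : ℚ) ≠ 0 := by exact_mod_cast hn0
            have h4 : (y * n ^ 2 / 8) ^ 2 =
                ((m * n * (8 * m - 9 * d * n) * (m + 2 * d * n) : ℤ) : ℚ) := by
              have : (y * n ^ 2 / 8) ^ 2 = y ^ 2 * n ^ 4 / 64 := by ring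
              rw [this, h, hxm]
              push_cast
              field_simp
              ring
            obtain ⟨Z, hZ⟩ := int_sq h4
            have h5 := congrArg (Int.cast : ℤ → ZMod 8) hZ
            push_cast at h5
            rw [h8] at h5
            exact tD _ _ _ (cast8 hm) (cast8 hn) h5
          · by_cases h4 : padicValRat 2 x ≤ 4
            · rw [Int.even_iff]; omega
            · have := even_of_gt (p := 2) hx c0 e0 hc hd h (by omega) (by omega)
              rw [v9, v16] at this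
              rw [Int.even_iff] at this ⊢
              omega
    · have v16 : padicValRat q (16 * (d : ℚ)) = 0 := by
        have := v_other 4 hq Nat.prime_two h2 hqd hd0
        push_cast at this; norm_num at this; exact this
      rcases lt_trichotomy (padicValRat q x) 0 with h0 | h0 | h0
      · exact even_of_lt hx c0 e0 hc hd h (by omega) (by omega)
      · rw [h0]; exact Even.zero
      · have := even_of_gt (p := q) hx c0 e0 hc hd h (by omega) (by omega)
        rw [v9, v16] at this
        simpa using this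

theorem tw_even_z {x y : ℚ} (h3 : (d : ZMod 3) = 2)
    (h5 : (d : ZMod 5) = 2 ∨ (d : ZMod 5) = 3)
    (h : y ^ 2 = x * (x + 9 * d) * (x + 25 * d)) (hx : x ≠ 0) (hc : x + 9 * d ≠ 0)
    (hd : x + 25 * d ≠ 0) (q : ℕ) (hq : q.Prime) (hqd : ¬ q ∣ d) : Even (padicValRat q x) := by
  have : Fact q.Prime := ⟨hq⟩
  have hd0 : d ≠ 0 := fun h0 => hqd (h0 ▸ dvd_zero q)
  have hd0' : (d : ℚ) ≠ 0 := by exact_mod_cast hd0
  have c0 : 9 * (d : ℚ) ≠ 0 := mul_ne_zero (by norm_num) hd0'
  have e0 : 25 * (d : ℚ) ≠ 0 := mul_ne_zero (by norm_num) hd0'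
  by_cases hq3 : q = 3
  · subst hq3
    have v9 : padicValRat 3 (9 * (d : ℚ)) = 2 := by
      have := v_self 2 hq hqd hd0
      push_cast at this; norm_num at this; exact this
    have v25 : padicValRat 3 (25 * (d : ℚ)) = 0 := by
      have := v_other 2 hq Nat.prime_five (by norm_num) hqd hd0
      push_cast at this; norm_num at this; exact this
    rcases lt_trichotomy (padicValRat 3 x) 0 with h0 | h0 | h0
    · exact even_of_lt hx c0 e0 hc hd h (by omega) (by omega)
    · rw [h0]; exact Even.zero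
    · by_cases h1 : padicValRat 3 x = 1
      · exfalso
        obtain ⟨m, n, hm, hn, hn0, hxm⟩ := exists_int_of_val (p := 3) hx (k := 1) h1
        have hn0' : (n : ℚ) ≠ 0 := by exact_mod_cast hn0
        have h4 : (y * n ^ 2 / 3) ^ 2 =
            ((m * n * (m + 3 * d * n) * (3 * m + 25 * d * n) : ℤ) : ℚ) := by
          have : (y * n ^ 2 / 3) ^ 2 = y ^ 2 * n ^ 4 / 9 := by ring
          rw [this, h, hxm]
          push_cast
          field_simp
          ring
        obtain ⟨Z, hZ⟩ := int_sq h4
        have h5 := congrArg (Int.cast : ℤ → ZMod 3) hZ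
        push_cast at h5
        rw [h3] at h5
        exact tB _ _ _ (cast3 hm) (cast3 hn) h5
      · by_cases h2 : padicValRat 3 x = 2
        · rw [h2]; exact ⟨1, rfl⟩
        · have := even_of_gt (p := 3) hx c0 e0 hc hd h (by omega) (by omega)
          rw [v9, v25] at this
          rw [Int.even_iff] at this ⊢
          omega
  · have v9 : padicValRat q (9 * (d : ℚ)) = 0 := by
      have := v_other 2 hq Nat.prime_three hq3 hqd hd0
      push_cast at this; norm_num at this; exact this
    by_cases hq5 : q = 5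
    · subst hq5
      have v25 : padicValRat 5 (25 * (d : ℚ)) = 2 := by
        have := v_self 2 hq hqd hd0
        push_cast at this; norm_num at this; exact this
      rcases lt_trichotomy (padicValRat 5 x) 0 with h0 | h0 | h0
      · exact even_of_lt hx c0 e0 hc hd h (by omega) (by omega)
      · rw [h0]; exact Even.zero
      · by_cases h1 : padicValRat 5 x = 1
        · exfalso
          obtain ⟨m, n, hm, hn, hn0, hxm⟩ := exists_int_of_val (p := 5) hx (k := 1) h1
          have hn0' : (n : ℚ) ≠ 0 := by exact_mod_cast hn0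
          have h4 : (y * n ^ 2 / 5) ^ 2 =
              ((m * n * (5 * m + 9 * d * n) * (m + 5 * d * n) : ℤ) : ℚ) := by
            have : (y * n ^ 2 / 5) ^ 2 = y ^ 2 * n ^ 4 / 25 := by ring
            rw [this, h, hxm]
            push_cast
            field_simp
            ring
          obtain ⟨Z, hZ⟩ := int_sq h4
          have h6 := congrArg (Int.cast : ℤ → ZMod 5) hZ
          push_cast at h6
          rcases h5 with h5 | h5
          · rw [h5] at h6
            exact tE2 _ _ _ (cast5 hm) (cast5 hn) h6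
          · rw [h5] at h6
            exact tE3 _ _ _ (cast5 hm) (cast5 hn) h6
        · by_cases h2 : padicValRat 5 x = 2
          · rw [h2]; exact ⟨1, rfl⟩
          · have := even_of_gt (p := 5) hx c0 e0 hc hd h (by omega) (by omega)
            rw [v9, v25] at this
            rw [Int.even_iff] at this ⊢
            omega
    · have v25 : padicValRat q (25 * (d : ℚ)) = 0 := by
        have := v_other 2 hq Nat.prime_five hq5 hqd hd0
        push_cast at this; norm_num at this; exact this
      rcases lt_trichotomy (padicValRat q x) 0 with h0 | h0 | h0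
      · exact even_of_lt hx c0 e0 hc hd h (by omega) (by omega)
      · rw [h0]; exact Even.zero
      · have := even_of_gt (p := q) hx c0 e0 hc hd h (by omega) (by omega)
        rw [v9, v25] at this
        simpa using this

end Vale.Agent.P017.H766
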