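import Vale.Agent.P017.H766.Loc
import Vale.Agent.P017.H766.Hv

/-! `X_0(15)` has finitely many rational points (complete `2`-descent). -/

namespace Vale.Agent.P017.H766

open WeierstrassCurve

theorem class_x {x y : ℚ} (h : y ^ 2 = x * (x + 9) * (x + -16)) (hx : x ≠ 0) (hc : x + 9 ≠ 0)
    (hd : x + -16 ≠ 0) : IsSquare x ∨ IsSquare (-x) := by
  rcases lt_or_gt_of_ne hx with h0 | h0
  · right
    refine isSquare_of_even (by linarith) fun p hp => ?_
    rw [padicValRat.neg]
    exact even_x h hx hc hd p hp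
  · exact Or.inl (isSquare_of_even h0 fun p hp => even_x h hx hc hd p hp)

theorem class_z {x y : ℚ} (h : y ^ 2 = x * (x + 9) * (x + -16)) (hx : x ≠ 0) (hc : x + 9 ≠ 0)
    (hd : x + -16 ≠ 0) : IsSquare (x + 9) ∨ IsSquare (5 * (x + 9)) := by
  have hy : y ≠ 0 := by
    rintro rfl
    exact mul_ne_zero (mul_ne_zero hx hc) hd (by rw [← h]; ring)
  have hpos : 0 < x + 9 := by
    rcases lt_or_gt_of_ne hx with h0 | h0
    · have h1 : 0 < x * (x + -16) := mul_pos_of_neg_of_neg h0 (by linarith)
      have h2 : 0 < y ^ 2 := by positivity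
      rw [h, show x * (x + 9) * (x + -16) = x * (x + -16) * (x + 9) by ring] at h2
      exact (pos_iff_pos_of_mul_pos h2).1 h1
    · linarith
  have hz : y ^ 2 = (x + 9) * ((x + 9) + -9) * ((x + 9) + -25) := by rw [h]; ring
  have he := even_z hz hc (by simpa using hx) (by
    intro h1; apply hd; linear_combination h1)
  have : Fact (Nat.Prime 5) := ⟨Nat.prime_five⟩
  by_cases h5 : Even (padicValRat 5 (x + 9))
  · left
    refine isSquare_of_even hpos fun p hp => ?_
    by_cases hp5 : p = 5
    · rw [hp5]; exact h5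
    · exact he p hp hp5
  · right
    refine isSquare_of_even (by positivity) fun p hp => ?_
    have : Fact p.Prime := ⟨hp⟩
    rw [padicValRat.mul (by norm_num) hc]
    by_cases hp5 : p = 5
    · subst hp5
      have v5 : padicValRat 5 (5 : ℚ) = 1 := by
        have := vr (p := 5) (n := 5 ^ 1) (k := 1) (padicValNat.prime_pow _)
        norm_num at this; exact this
      rw [v5]
      rw [Int.even_iff] at h5 ⊢
      omega
    · have v5 : padicValRat p (5 : ℚ) = 0 := by
        have := vr (p := p) (n := 5 ^ 1) (k := 0) (pn hp Nat.prime_five hp5 1)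
        norm_num at this; exact this
      rw [v5, zero_add]
      exact he p hp hp5

/-- `X_0(15)`. -/
abbrev E15 : WeierstrassCurve ℚ := EC (-7) (-144)

theorem sq_div {a b c : ℚ} (h : IsSquare (a * b * c)) (hab : IsSquare (a * b))
    (h0 : a * b ≠ 0) : IsSquare c := by
  have : c = (a * b * c) / (a * b) := (mul_div_cancel_left₀ c h0).symm
  rw [this]
  exact h.div hab

theorem four_of_double {P : E15.toAffine.Point} {x y : ℚ} {h : E15.toAffine.Nonsingular x y}
    (hy : y = 0) (hP : 2 • P = Affine.Point.some x y h) : 4 • P = 0 := by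
  rw [show 4 = 2 * 2 by norm_num, mul_smul, hP, two_nsmul]
  refine Affine.Point.add_self_of_Y_eq ?_
  subst hy
  unfold Affine.negY
  simp

theorem four_of_point {x y : ℚ} (h : E15.toAffine.Nonsingular x y) (hy : y ≠ 0)
    (l : ℚ) (hl : l * (2 * y) = 3 * x ^ 2 - 14 * x - 144)
    (h2 : y + l * ((l ^ 2 + 7 - 2 * x) - x) = 0) :
    4 • Affine.Point.some x y h = 0 := by
  have hne : y ≠ E15.toAffine.negY x y := by
    unfold Affine.negY
    intro h3
    apply hy
    have h4 : y = -y := by simpa using h3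
    linarith
  have hs : E15.toAffine.slope x x y y = l := by
    rw [Affine.slope_of_Y_ne rfl hne]
    unfold Affine.negY
    rw [div_eq_iff]
    · simp only []
      linear_combination -hl
    · intro h3
      apply hy
      have h4 : y + y = 0 := by simpa using h3
      linarith
  refine four_of_double (x := E15.toAffine.addX x x (E15.toAffine.slope x x y y))
    (y := E15.toAffine.addY x x y (E15.toAffine.slope x x y y))
    (h := Affine.nonsingular_add h h fun hxy => hne hxy.right) ?_ ?_
  · rw [hs]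
    unfold Affine.addY Affine.negAddY Affine.addX Affine.negY
    simp only []
    linear_combination -h2
  · rw [two_nsmul]
    exact Affine.Point.add_self_of_Y_ne hne

theorem halve' {x y : ℚ} (hn : E15.toAffine.Nonsingular x y)
    (h0 : IsSquare x) (ha' : IsSquare (x - (-9))) (hb' : IsSquare (x - 16)) :
    ∃ Q, Affine.Point.some x y hn = 2 • Q :=
  halve (a := -9) (b := 16) (by norm_num) (by norm_num) (by norm_num) (by norm_num) (by norm_num)
    (by norm_num) hn h0 ha' hb'

theorem ns36 : E15.toAffine.Nonsingular 36 180 := by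
  rw [Affine.nonsingular_iff, Affine.equation_iff]
  norm_num

theorem ns4 : E15.toAffine.Nonsingular (-4) 20 := by
  rw [Affine.nonsingular_iff, Affine.equation_iff]
  norm_num

theorem four36 : 4 • Affine.Point.some 36 180 ns36 = 0 :=
  four_of_point ns36 (by norm_num) 9 (by norm_num) (by norm_num)

theorem four4 : 4 • Affine.Point.some (-4) 20 ns4 = 0 :=
  four_of_point ns4 (by norm_num) (-1) (by norm_num) (by norm_num)

/-- the property to be proved for all points. -/
def Good (P : E15.toAffine.Point) : Prop :=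
  ∃ T Q : E15.toAffine.Point, 4 • T = 0 ∧ P = T + 2 • Q

theorem good_of_four {P : E15.toAffine.Point} (h : 4 • P = 0) : Good P :=
  ⟨P, 0, h, by rw [nsmul_zero, add_zero]⟩

theorem good_of_sub {P T : E15.toAffine.Point} (hT : 4 • T = 0) (h : Good (P + T)) : Good P := by
  obtain ⟨S, Q, hS, hQ⟩ := h
  refine ⟨S - T, Q, by rw [nsmul_sub, hS, hT, sub_zero], ?_⟩
  have : P = (P + T) - T := by abel
  rw [this, hQ]
  abel

theorem four_of_same {x y x' y' : ℚ} {h : E15.toAffine.Nonsingular x y}
    {h' : E15.toAffine.Nonsingular x' y'} (hx : x = x')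
    (hT : 4 • Affine.Point.some x' y' h' = 0) : 4 • Affine.Point.some x y h = 0 := by
  subst hx
  have h1 := EF_eq h
  have h2 := EF_eq h'
  have h3 : y ^ 2 = y' ^ 2 := by rw [h1, h2]
  rcases sq_eq_sq_iff_eq_or_eq_neg.1 h3 with rfl | rfl
  · exact hT
  · have h4 : Affine.Point.some x (-y') h = -Affine.Point.some x y' h' := by
      rw [Affine.Point.neg_some]
      simp only [Affine.Point.some.injEq, true_and]
      unfold Affine.negY
      simp
    rw [h4, neg_nsmul, hT, neg_zero]

theorem root9 : (-9 : ℚ) ^ 3 + -7 * (-9 : ℚ) ^ 2 + -144 * -9 = 0 := by norm_num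
theorem root16 : (16 : ℚ) ^ 3 + -7 * (16 : ℚ) ^ 2 + -144 * 16 = 0 := by norm_num
theorem root0 : (0 : ℚ) ^ 3 + -7 * (0 : ℚ) ^ 2 + -144 * 0 = 0 := by norm_num

/-- class `(1, 1, 1)`. -/
theorem good_111 {x y : ℚ} (hn : E15.toAffine.Nonsingular x y)
    (h0 : IsSquare x) (h1 : IsSquare (x + 9)) (h2 : IsSquare (x + -16)) :
    Good (Affine.Point.some x y hn) := by
  obtain ⟨Q, hQ⟩ := halve' hn h0 (by rwa [sub_neg_eq_add]) (by rwa [sub_eq_add_neg])
  exact ⟨0, Q, nsmul_zero _, by rw [hQ, zero_add]⟩

/-- class `(c, 5, 5 c)` with a point of order `4` of the same class. -/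
theorem good_of_T {x y x' y' : ℚ} (hn : E15.toAffine.Nonsingular x y)
    (hn' : E15.toAffine.Nonsingular x' y') (hT : 4 • Affine.Point.some x' y' hn' = 0)
    (h0 : IsSquare (x * x')) (h1 : IsSquare ((x + 9) * (x' + 9)))
    (h2 : IsSquare ((x + -16) * (x' + -16)))
    (n0 : x * x' ≠ 0) (n1 : (x + 9) * (x' + 9) ≠ 0) (n2 : (x + -16) * (x' + -16) ≠ 0) :
    Good (Affine.Point.some x y hn) := by
  by_cases hx : x = x'
  · exact good_of_four (four_of_same hx hT)
  · obtain ⟨x3, y3, h3, hadd, hsq⟩ := add_point hn hn' hx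
    refine good_of_sub hT ?_
    rw [hadd]
    have s0 := hsq 0 root0
    have s9 := hsq (-9) root9
    have s16 := hsq 16 root16
    simp only [sub_zero] at s0
    rw [sub_neg_eq_add, sub_neg_eq_add, sub_neg_eq_add] at s9
    rw [sub_eq_add_neg, sub_eq_add_neg, sub_eq_add_neg] at s16
    exact good_111 h3 (sq_div s0 h0 n0) (sq_div s9 h1 n1) (sq_div s16 h2 n2)

theorem four_of_root {x y : ℚ} (hn : E15.toAffine.Nonsingular x y) (hy : y = 0) :
    4 • Affine.Point.some x y hn = 0 := by
  have h1 : 2 • Affine.Point.some x y hn = 0 := by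
    rw [two_nsmul]
    refine Affine.Point.add_self_of_Y_eq ?_
    subst hy
    unfold Affine.negY
    simp
  rw [show 4 = 2 * 2 by norm_num, mul_nsmul, h1, nsmul_zero]

theorem good_aux {x y : ℚ} (hn : E15.toAffine.Nonsingular x y)
    (H : y ^ 2 = x * (x + 9) * (x + -16) → x ≠ 0 → x + 9 ≠ 0 → x + -16 ≠ 0 →
      Good (Affine.Point.some x y hn)) : Good (Affine.Point.some x y hn) := by
  by_cases hy : y = 0
  · exact good_of_four (four_of_root hn hy)
  · have he := EF_eq hn
    have h : y ^ 2 = x * (x + 9) * (x + -16) := by rw [he]; ring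
    have hxyz : x * (x + 9) * (x + -16) ≠ 0 := by rw [← h]; exact pow_ne_zero 2 hy
    exact H h (left_ne_zero_of_mul (left_ne_zero_of_mul hxyz))
      (right_ne_zero_of_mul (left_ne_zero_of_mul hxyz)) (right_ne_zero_of_mul hxyz)

theorem sqn (a : ℚ) : IsSquare (a ^ 2) := ⟨a, sq a⟩

/-- class `(1, 5, 5)`. -/
theorem good_155 {x y : ℚ} (hn : E15.toAffine.Nonsingular x y)
    (h0 : IsSquare x) (h1 : IsSquare (5 * (x + 9))) : Good (Affine.Point.some x y hn) := by
  refine good_aux hn fun h n0 n1 n2 => ?_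
  have h2 : IsSquare (5 * (x + -16)) := by
    refine sq_div (a := x) (b := 5 * (x + 9)) ?_ (h0.mul h1)
      (mul_ne_zero n0 (mul_ne_zero (by norm_num) n1))
    refine ⟨5 * y, ?_⟩
    linear_combination (-25) * h
  refine good_of_T hn ns36 four36 ?_ ?_ ?_ (mul_ne_zero n0 (by norm_num))
    (mul_ne_zero n1 (by norm_num)) (mul_ne_zero n2 (by norm_num))
  · have := h0.mul (sqn 6)
    norm_num at this ⊢; exact this
  · have := h1.mul (sqn 3)
    rw [show 5 * (x + 9) * 3 ^ 2 = (x + 9) * (36 + 9) by ring] at this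
    exact this
  · have := h2.mul (sqn 2)
    rw [show 5 * (x + -16) * 2 ^ 2 = (x + -16) * (36 + -16) by ring] at this
    exact this

/-- class `(-1, 5, -5)`. -/
theorem good_m15 {x y : ℚ} (hn : E15.toAffine.Nonsingular x y)
    (h0 : IsSquare (-x)) (h1 : IsSquare (5 * (x + 9))) : Good (Affine.Point.some x y hn) := by
  refine good_aux hn fun h n0 n1 n2 => ?_
  have h2 : IsSquare (-5 * (x + -16)) := by
    refine sq_div (a := -x) (b := 5 * (x + 9)) ?_ (h0.mul h1)
      (mul_ne_zero (neg_ne_zero.2 n0) (mul_ne_zero (by norm_num) n1))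
    refine ⟨5 * y, ?_⟩
    linear_combination (-25) * h
  refine good_of_T hn ns4 four4 ?_ ?_ ?_ (mul_ne_zero n0 (by norm_num))
    (mul_ne_zero n1 (by norm_num)) (mul_ne_zero n2 (by norm_num))
  · have := h0.mul (sqn 2)
    rw [show -x * 2 ^ 2 = x * -4 by ring] at this
    exact this
  · rw [show (x + 9) * (-4 + 9) = 5 * (x + 9) by ring]
    exact h1
  · have := h2.mul (sqn 2)
    rw [show -5 * (x + -16) * 2 ^ 2 = (x + -16) * (-4 + -16) by ring] at this
    exact this

/-- class `(-1, 1, -1)`. -/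
theorem good_m1m {x y : ℚ} (hn : E15.toAffine.Nonsingular x y)
    (h0 : IsSquare (-x)) (h1 : IsSquare (x + 9)) : Good (Affine.Point.some x y hn) := by
  refine good_aux hn fun h n0 n1 n2 => ?_
  by_cases hx : x = 36
  · exact good_of_four (four_of_same hx four36)
  · obtain ⟨x3, y3, h3, hadd, hsq⟩ := add_point hn ns36 hx
    refine good_of_sub four36 ?_
    rw [hadd]
    have s0 := hsq 0 root0
    have s9 := hsq (-9) root9
    simp only [sub_zero] at s0
    rw [sub_neg_eq_add, sub_neg_eq_add, sub_neg_eq_add] at s9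
    refine good_m15 h3 ?_ ?_
    · refine sq_div (a := -x) (b := 36) ?_ ?_ ?_
      · rw [show -x * 36 * -x3 = x * 36 * x3 by ring]
        exact s0
      · have := h0.mul (sqn 6)
        norm_num at this ⊢; exact this
      · exact mul_ne_zero (neg_ne_zero.2 n0) (by norm_num)
    · refine sq_div (a := x + 9) (b := 9) ?_ ?_ ?_
      · rw [show (x + 9) * 9 * (5 * (x3 + 9)) = (x + 9) * (36 + 9) * (x3 + 9) by ring]
        exact s9
      · have := h1.mul (sqn 3)
        norm_num at this ⊢; exact this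
      · exact mul_ne_zero n1 (by norm_num)

theorem good (P : E15.toAffine.Point) : Good P := by
  rcases P with _ | ⟨x, y, hn⟩
  · exact good_of_four (nsmul_zero _)
  · refine good_aux hn fun h n0 n1 n2 => ?_
    rcases class_x h n0 n1 n2 with h0 | h0 <;> rcases class_z h n0 n1 n2 with h1 | h1
    · exact good_111 hn h0 h1 (sq_div (h ▸ sqn y) (h0.mul h1) (mul_ne_zero n0 n1))
    · exact good_155 hn h0 h1
    · exact good_m1m hn h0 h1
    · exact good_m15 hn h0 h1

/-- **`X_0(15)` has finitely many rational points.** -/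
theorem finite_E15 : {p : ℚ × ℚ | p.2 ^ 2 = p.1 ^ 3 - 7 * p.1 ^ 2 - 144 * p.1}.Finite := by
  refine (finite_rat (A := -7) (B := -144) (by norm_num) (by norm_num) (N := 4) (by norm_num)
    good).subset fun p hp => ?_
  have hp' : p.2 ^ 2 = p.1 ^ 3 - 7 * p.1 ^ 2 - 144 * p.1 := hp
  show p.2 ^ 2 = p.1 ^ 3 + -7 * p.1 ^ 2 + -144 * p.1
  linear_combination hp'

end Vale.Agent.P017.H766
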