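import Vale.Agent.P017.H766.Q15
import Vale.Agent.P017.H766.X15Q
import Vale.Agent.P017.H766.TwQ
import Mathlib.NumberTheory.LSeries.PrimesInAP

/-! `X_0(15)(ℚ(√-p))` is finite for every prime `p = 83, 107 mod 120`. -/

namespace Vale.Agent.P017.H766

open WeierstrassCurve

theorem finite_main {p : ℕ} (hp : p.Prime) (hmod : p % 120 = 83 ∨ p % 120 = 107)
    {K : Type*} [Field K] [NumberField K] (hK : Module.finrank ℚ K = 2) {s : K}
    (hs : s ^ 2 = -(p : K)) : Finite (X15.toAffine.baseChange K).Point := by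
  have h3 : (p : ZMod 3) = 2 := by
    have : (p : ZMod 3) = ((2 : ℕ) : ZMod 3) := (ZMod.natCast_eq_natCast_iff' p 2 3).2 (by omega)
    rw [this]; rfl
  have h8 : (p : ZMod 8) = 3 := by
    have : (p : ZMod 8) = ((3 : ℕ) : ZMod 8) := (ZMod.natCast_eq_natCast_iff' p 3 8).2 (by omega)
    rw [this]; rfl
  have h5 : (p : ZMod 5) = 2 ∨ (p : ZMod 5) = 3 := by
    rcases hmod with h | h
    · right
      have : (p : ZMod 5) = ((3 : ℕ) : ZMod 5) :=
        (ZMod.natCast_eq_natCast_iff' p 3 5).2 (by omega)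
      rw [this]; rfl
    · left
      have : (p : ZMod 5) = ((2 : ℕ) : ZMod 5) :=
        (ZMod.natCast_eq_natCast_iff' p 2 5).2 (by omega)
      rw [this]; rfl
  have hpp : (0 : ℚ) < p := by exact_mod_cast hp.pos
  refine finite_X15 hK (D := -p) (s := s) ?_ ?_ finite_E15 (finite_ET hp h3 h8 h5)
  · rw [hs]; simp
  · rintro ⟨r, hr⟩
    have : 0 ≤ r * r := mul_self_nonneg r
    linarith

theorem infinite_primes : {p : ℕ | p.Prime ∧ p % 120 = 83}.Infinite := by
  have h := Nat.infinite_setOfPred_prime_and_eq_mod (q := 120) (a := ((83 : ℕ) : ZMod 120))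
    ((ZMod.isUnit_iff_coprime 83 120).2 (by norm_num))
  refine h.mono fun p hp => ⟨hp.1, ?_⟩
  have := (ZMod.natCast_eq_natCast_iff' p 83 120).1 hp.2
  simpa using this

end Vale.Agent.P017.H766
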