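import Vale.Agent.P017.H766.Comp
import Vale.Agent.P017.H766.Main

/-! `X_0(15)(ℚ(√-d))` is finite for squarefree `d = 83, 107 mod 120` with `R1`, `R2`. -/

namespace Vale.Agent.P017.H766

open WeierstrassCurve

theorem finite_mainC {d : ℕ} (hsf : Squarefree d) (hd : d % 120 = 83 ∨ d % 120 = 107)
    (hR1 : R1 d) (hR2 : R2 d)
    {K : Type*} [Field K] [NumberField K] (hK : Module.finrank ℚ K = 2) {s : K}
    (hs : s ^ 2 = -(d : K)) : Finite (X15.toAffine.baseChange K).Point := by
  have hdp : (0 : ℚ) < d := by exact_mod_cast Nat.pos_of_ne_zero hsf.ne_zero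
  refine finite_X15 hK (D := -d) (s := s) ?_ ?_ finite_E15 (finite_ETC hsf hd hR1 hR2)
  · rw [hs]; simp
  · rintro ⟨r, hr⟩
    have : 0 ≤ r * r := mul_self_nonneg r
    linarith

theorem R1_prime {p : ℕ} (hp : p.Prime) : R1 p := by
  intro m M hmM _ _
  rcases (Nat.dvd_prime hp).1 ⟨M, hmM.symm⟩ with h | h
  · exact Or.inl h
  · right
    have : m * M = m * 1 := by rw [hmM, mul_one, h]
    exact Nat.eq_of_mul_eq_mul_left (by rw [h]; exact hp.pos) this

theorem R2_prime {p : ℕ} (hp : p.Prime) : R2 p := by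
  intro a b hab ha hb _ _
  have h1 : a.natAbs * b.natAbs = p := by
    rw [← Int.natAbs_mul, hab, Int.natAbs_neg, Int.natAbs_natCast]
  rcases (Nat.dvd_prime hp).1 ⟨_, h1.symm⟩ with h | h
  · left
    omega
  · right
    have : b.natAbs = 1 := by
      have : a.natAbs * b.natAbs = a.natAbs * 1 := by rw [h1, mul_one, h]
      exact Nat.eq_of_mul_eq_mul_left (by rw [h]; exact hp.pos) this
    omega

end Vale.Agent.P017.H766
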