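import Vale.Agent.P017.H766.Qd

/-! Descent tools: the product of three collinear points; from a descent to finiteness. -/

namespace Vale.Agent.P017.H766

open WeierstrassCurve

/-- the curve `y ^ 2 = x ^ 3 + A x ^ 2 + B x` over a field. -/
abbrev EF {F : Type*} [Field F] (A B : F) : WeierstrassCurve F := ⟨0, A, 0, B, 0⟩

theorem collinear {F : Type*} [Field F] {A B x1 y1 x2 y2 l e : F}
    (h1 : y1 ^ 2 = x1 ^ 3 + A * x1 ^ 2 + B * x1) (h2 : y2 ^ 2 = x2 ^ 3 + A * x2 ^ 2 + B * x2)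
    (hl : l * (x1 - x2) = y1 - y2) (hx : x1 ≠ x2) (he : e ^ 3 + A * e ^ 2 + B * e = 0) :
    (x1 - e) * (x2 - e) * ((l ^ 2 - A - x1 - x2) - e) = (y1 + l * (e - x1)) ^ 2 := by
  apply mul_left_cancel₀ (sub_ne_zero.2 hx)
  linear_combination (-(e - x2)) * h1 - (x1 - e) * h2 +
    (x1 - e) * (y2 + y1 - l * (x1 - x2)) * hl - (x1 - x2) * he

theorem EF_eq {F : Type*} [Field F] {A B x y : F} (h : (EF A B).toAffine.Nonsingular x y) :
    y ^ 2 = x ^ 3 + A * x ^ 2 + B * x := by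
  have h1 := (Affine.equation_iff ..).1 h.1
  linear_combination h1

/-- the sum of two points with different abscissas. -/
theorem add_point {F : Type*} [Field F] [DecidableEq F] {A B x1 y1 x2 y2 : F}
    (h1 : (EF A B).toAffine.Nonsingular x1 y1) (h2 : (EF A B).toAffine.Nonsingular x2 y2)
    (hx : x1 ≠ x2) :
    ∃ x3 y3, ∃ h3 : (EF A B).toAffine.Nonsingular x3 y3,
      Affine.Point.some x1 y1 h1 + Affine.Point.some x2 y2 h2 = Affine.Point.some x3 y3 h3 ∧
      ∀ e, e ^ 3 + A * e ^ 2 + B * e = 0 → IsSquare ((x1 - e) * (x2 - e) * (x3 - e)) := by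
  refine ⟨_, _, _, Affine.Point.add_of_X_ne hx, ?_⟩
  intro e he
  have hs := Affine.slope_of_X_ne (W := (EF A B).toAffine) (y₁ := y1) (y₂ := y2) hx
  have hl : (EF A B).toAffine.slope x1 x2 y1 y2 * (x1 - x2) = y1 - y2 := by
    rw [hs, div_mul_cancel₀ _ (sub_ne_zero.2 hx)]
  have := collinear (EF_eq h1) (EF_eq h2) hl hx he
  refine ⟨y1 + (EF A B).toAffine.slope x1 x2 y1 y2 * (e - x1), ?_⟩
  rw [← sq, ← this]
  unfold Affine.addX
  ring

/-- from a `2`-descent to the finiteness of the set of solutions. -/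
theorem finite_rat {A B : ℚ} (hB : B ≠ 0) (hAB : A ^ 2 - 4 * B ≠ 0) {N : ℕ} (hN : N ≠ 0)
    (hd : ∀ P : (EC A B).toAffine.Point, ∃ T Q : (EC A B).toAffine.Point,
      N • T = 0 ∧ P = T + 2 • Q) :
    {p : ℚ × ℚ | p.2 ^ 2 = p.1 ^ 3 + A * p.1 ^ 2 + B * p.1}.Finite := by
  have hell : (EC A B).IsElliptic := isElliptic_EC hB hAB
  have hell' : (EC A B).toAffine.IsElliptic := hell
  have hf : Finite (EC A B).toAffine.Point := finite_of_descent (EC A B) hN hd
  let f : (EC A B).toAffine.Point → ℚ × ℚ := fun P =>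
    match P with
    | .zero => (0, 0)
    | .some x y _ => (x, y)
  refine (Set.finite_range f).subset ?_
  rintro ⟨x, y⟩ hxy
  have hxy' : y ^ 2 = x ^ 3 + A * x ^ 2 + B * x := hxy
  have hn : (EC A B).toAffine.Nonsingular x y := by
    refine (Affine.equation_iff_nonsingular).1 ?_
    refine (Affine.equation_iff ..).2 ?_
    show y ^ 2 + 0 * x * y + 0 * y = x ^ 3 + A * x ^ 2 + B * x + 0
    linear_combination hxy'
  exact ⟨.some x y hn, rfl⟩

end Vale.Agent.P017.H766
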