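import Vale.Agent.P017.H766.Qd

/-! `X_0(15)` over a quadratic field. -/

namespace Vale.Agent.P017.H766

open WeierstrassCurve

variable {K : Type*} [Field K] [NumberField K]

/-- the conjugation of a quadratic field. -/
theorem exists_conj (hK : Module.finrank ℚ K = 2) {s : K} {D : ℚ}
    (hD : s ^ 2 = algebraMap ℚ K D) (hD' : ¬ IsSquare D) :
    ∃ σ : K →ₐ[ℚ] K, (∀ z, σ (σ z) = z) ∧ (∀ z, σ z = z → ∃ q : ℚ, algebraMap ℚ K q = z) ∧
      σ s = -s := by
  have : Algebra.IsQuadraticExtension ℚ K := ⟨hK⟩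
  have hG : IsGalois ℚ K := inferInstance
  have hc : Nat.card Gal(K/ℚ) = 2 := by rw [IsGalois.card_aut_eq_finrank, hK]
  obtain ⟨σ, hσ1, hσ2⟩ : ∃ σ : Gal(K/ℚ), σ ≠ 1 ∧ ∀ τ, τ ≠ 1 → τ = σ := by
    obtain ⟨x, y, hxy, huniv⟩ := Nat.card_eq_two_iff.1 hc
    have key : ∀ z : Gal(K/ℚ), z = x ∨ z = y := fun z => by
      have : z ∈ ({x, y} : Set Gal(K/ℚ)) := huniv ▸ Set.mem_univ z
      simpa using this
    rcases key 1 with h | h
    · refine ⟨y, fun hy => hxy (h ▸ hy).symm, fun τ hτ => (key τ).resolve_left (h ▸ hτ)⟩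
    · refine ⟨x, fun hx => hxy (h ▸ hx), fun τ hτ => (key τ).resolve_right (h ▸ hτ)⟩
  have hfix : ∀ z, σ z = z → ∃ q : ℚ, algebraMap ℚ K q = z := by
    intro z hz
    have := (IsGalois.mem_bot_iff_fixed (F := ℚ) (E := K) z).2 (fun τ => by
      by_cases hτ : τ = 1
      · rw [hτ]; rfl
      · rw [hσ2 τ hτ, hz])
    exact IntermediateField.mem_bot.1 this
  refine ⟨σ.toAlgHom, fun z => ?_, hfix, ?_⟩
  · by_contra hne
    have h1 : σ * σ ≠ 1 := fun h => hne (by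
      have := congrArg (fun τ : Gal(K/ℚ) => τ z) h
      exact this)
    have h2 := hσ2 _ h1
    exact hσ1 (mul_eq_left.1 h2)
  · have h1 : (σ s) ^ 2 = s ^ 2 := by
      rw [← map_pow, hD]; exact σ.commutes D
    rcases sq_eq_sq_iff_eq_or_eq_neg.1 h1 with h | h
    · exfalso
      obtain ⟨q, hq⟩ := hfix s h
      apply hD'
      refine ⟨q, ?_⟩
      have : algebraMap ℚ K (q ^ 2) = algebraMap ℚ K D := by rw [map_pow, hq, hD]
      have := (algebraMap ℚ K).injective this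
      rw [← this]; ring
    · exact h

/-- solutions over `K`. -/
theorem finite_solutions (hK : Module.finrank ℚ K = 2) {s : K} {D : ℚ}
    (hD : s ^ 2 = algebraMap ℚ K D) (hD' : ¬ IsSquare D) (A B : ℚ)
    (hB : B ≠ 0) (hAB : A ^ 2 - 4 * B ≠ 0)
    (h1 : {p : ℚ × ℚ | p.2 ^ 2 = p.1 ^ 3 + A * p.1 ^ 2 + B * p.1}.Finite)
    (h2 : {p : ℚ × ℚ | p.2 ^ 2 = p.1 ^ 3 + A * D * p.1 ^ 2 + B * D ^ 2 * p.1}.Finite) :
    {p : K × K | p.2 ^ 2 = p.1 ^ 3 + algebraMap ℚ K A * p.1 ^ 2 +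
      algebraMap ℚ K B * p.1}.Finite := by
  classical
  obtain ⟨σ, hσ, hfix, hs⟩ := exists_conj hK hD hD'
  have hD0 : D ≠ 0 := fun h => hD' (h ▸ IsSquare.zero)
  have hf := finite_quadratic σ hσ hfix hs hD hD0 A B hB hAB h1 h2
  have hell : (EC A B).IsElliptic := isElliptic_EC hB hAB
  have hell' : ((EC A B).toAffine.baseChange K).IsElliptic :=
    inferInstanceAs ((EC A B).map (algebraMap ℚ K)).IsElliptic
  let f : ((EC A B).toAffine.baseChange K).Point → K × K := fun P =>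
    match P with
    | .zero => (0, 0)
    | .some x y _ => (x, y)
  refine (Set.finite_range f).subset ?_
  rintro ⟨x, y⟩ hxy
  have hxy' : y ^ 2 = x ^ 3 + algebraMap ℚ K A * x ^ 2 + algebraMap ℚ K B * x := hxy
  have hn : ((EC A B).toAffine.baseChange K).Nonsingular x y := by
    refine (Affine.equation_iff_nonsingular).1 ?_
    refine (Affine.equation_iff ..).2 ?_
    have e1 : ((EC A B).toAffine.baseChange K).a₁ = 0 := by
      show algebraMap ℚ K 0 = 0; simp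
    have e2 : ((EC A B).toAffine.baseChange K).a₂ = algebraMap ℚ K A := rfl
    have e3 : ((EC A B).toAffine.baseChange K).a₃ = 0 := by
      show algebraMap ℚ K 0 = 0; simp
    have e4 : ((EC A B).toAffine.baseChange K).a₄ = algebraMap ℚ K B := rfl
    have e6 : ((EC A B).toAffine.baseChange K).a₆ = 0 := by
      show algebraMap ℚ K 0 = 0; simp
    rw [e1, e2, e3, e4, e6]
    linear_combination hxy'
  exact ⟨.some x y hn, rfl⟩

/-- the minimal model `[1, 1, 1, -10, -10]` of `X_0(15)`. -/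
abbrev X15 : WeierstrassCurve ℚ := ⟨1, 1, 1, -10, -10⟩

/-- solutions over `K`, minimal model. -/
theorem finite_solutions_X15 (hK : Module.finrank ℚ K = 2) {s : K} {D : ℚ}
    (hD : s ^ 2 = algebraMap ℚ K D) (hD' : ¬ IsSquare D)
    (h1 : {p : ℚ × ℚ | p.2 ^ 2 = p.1 ^ 3 - 7 * p.1 ^ 2 - 144 * p.1}.Finite)
    (h2 : {p : ℚ × ℚ | p.2 ^ 2 = p.1 ^ 3 - 7 * D * p.1 ^ 2 - 144 * D ^ 2 * p.1}.Finite) :
    {p : K × K | p.2 ^ 2 + p.1 * p.2 + p.2 = p.1 ^ 3 + p.1 ^ 2 - 10 * p.1 - 10}.Finite := by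
  have h := finite_solutions hK hD hD' (-7) (-144) (by norm_num) (by norm_num)
    (h1.subset fun p hp => by
      have hp' : p.2 ^ 2 = p.1 ^ 3 + -7 * p.1 ^ 2 + -144 * p.1 := hp
      show p.2 ^ 2 = p.1 ^ 3 - 7 * p.1 ^ 2 - 144 * p.1
      linear_combination hp')
    (h2.subset fun p hp => by
      have hp' : p.2 ^ 2 = p.1 ^ 3 + -7 * D * p.1 ^ 2 + -144 * D ^ 2 * p.1 := hp
      show p.2 ^ 2 = p.1 ^ 3 - 7 * D * p.1 ^ 2 - 144 * D ^ 2 * p.1
      linear_combination hp')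
  refine (h.preimage (f := fun p : K × K => (4 * p.1 + 4, 4 * (2 * p.2 + p.1 + 1))) ?_).subset ?_
  · rintro ⟨x, y⟩ - ⟨x', y'⟩ - hxy
    simp only [Prod.mk.injEq] at hxy ⊢
    obtain ⟨e1, e2⟩ := hxy
    have hx : x = x' := by linear_combination e1 / 4
    exact ⟨hx, by linear_combination e2 / 8 - e1 / 8⟩
  · rintro ⟨x, y⟩ hxy
    have hxy' : y ^ 2 + x * y + y = x ^ 3 + x ^ 2 - 10 * x - 10 := hxy
    show (4 * (2 * y + x + 1)) ^ 2 = (4 * x + 4) ^ 3 + algebraMap ℚ K (-7) * (4 * x + 4) ^ 2 +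
      algebraMap ℚ K (-144) * (4 * x + 4)
    have e7 : algebraMap ℚ K (-7) = -7 := by simp
    have e144 : algebraMap ℚ K (-144) = -144 := by simp
    rw [e7, e144]
    linear_combination 64 * hxy'

/-- the group of points over `K`, minimal model. -/
theorem finite_X15 (hK : Module.finrank ℚ K = 2) {s : K} {D : ℚ}
    (hD : s ^ 2 = algebraMap ℚ K D) (hD' : ¬ IsSquare D)
    (h1 : {p : ℚ × ℚ | p.2 ^ 2 = p.1 ^ 3 - 7 * p.1 ^ 2 - 144 * p.1}.Finite)
    (h2 : {p : ℚ × ℚ | p.2 ^ 2 = p.1 ^ 3 - 7 * D * p.1 ^ 2 - 144 * D ^ 2 * p.1}.Finite) :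
    Finite (X15.toAffine.baseChange K).Point := by
  have h := finite_solutions_X15 hK hD hD' h1 h2
  let g : (X15.toAffine.baseChange K).Point → Option (K × K) := fun P =>
    match P with
    | .zero => none
    | .some x y _ => some (x, y)
  have hg : Function.Injective g := by
    rintro (_ | ⟨x, y, h⟩) (_ | ⟨x', y', h'⟩) hPQ
    · rfl
    · simp [g] at hPQ
    · simp [g] at hPQ
    · simp only [g, Option.some.injEq, Prod.mk.injEq] at hPQ
      obtain ⟨rfl, rfl⟩ := hPQ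
      rfl
  have hfin : (insert none (some '' {p : K × K | p.2 ^ 2 + p.1 * p.2 + p.2 =
      p.1 ^ 3 + p.1 ^ 2 - 10 * p.1 - 10})).Finite := (h.image _).insert _
  refine Set.finite_univ_iff.1 ((hfin.preimage (f := g) hg.injOn).subset ?_)
  rintro (_ | ⟨x, y, hn⟩) -
  · exact Or.inl rfl
  · refine Or.inr ⟨(x, y), ?_, rfl⟩
    have h1 := (Affine.equation_iff ..).1 hn.1
    have e1 : (X15.toAffine.baseChange K).a₁ = 1 := by
      show algebraMap ℚ K 1 = 1; simp
    have e2 : (X15.toAffine.baseChange K).a₂ = 1 := by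
      show algebraMap ℚ K 1 = 1; simp
    have e3 : (X15.toAffine.baseChange K).a₃ = 1 := by
      show algebraMap ℚ K 1 = 1; simp
    have e4 : (X15.toAffine.baseChange K).a₄ = -10 := by
      show algebraMap ℚ K (-10) = -10; simp
    have e6 : (X15.toAffine.baseChange K).a₆ = -10 := by
      show algebraMap ℚ K (-10) = -10; simp
    rw [e1, e2, e3, e4, e6] at h1
    show y ^ 2 + x * y + y = x ^ 3 + x ^ 2 - 10 * x - 10
    linear_combination h1

end Vale.Agent.P017.H766
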