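import Vale.Agent.P017.H766.Ht

/-! Points over a quadratic field: finiteness from the curve and its quadratic twist over `ℚ`. -/

namespace Vale.Agent.P017.H766

open WeierstrassCurve

/-- the curve `y ^ 2 = x ^ 3 + A x ^ 2 + B x`. -/
abbrev EC (A B : ℚ) : WeierstrassCurve ℚ := ⟨0, A, 0, B, 0⟩

variable {K : Type*} [Field K] [NumberField K] [DecidableEq K]

omit [DecidableEq K] in
theorem EC_eq {A B : ℚ} {x y : K} (h : ((EC A B).toAffine.baseChange K).Nonsingular x y) :
    y ^ 2 = x ^ 3 + algebraMap ℚ K A * x ^ 2 + algebraMap ℚ K B * x := by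
  have h1 := (Affine.equation_iff ..).1 h.1
  have e1 : ((EC A B).toAffine.baseChange K).a₁ = 0 := by
    show algebraMap ℚ K 0 = 0; simp
  have e2 : ((EC A B).toAffine.baseChange K).a₂ = algebraMap ℚ K A := rfl
  have e3 : ((EC A B).toAffine.baseChange K).a₃ = 0 := by
    show algebraMap ℚ K 0 = 0; simp
  have e4 : ((EC A B).toAffine.baseChange K).a₄ = algebraMap ℚ K B := rfl
  have e6 : ((EC A B).toAffine.baseChange K).a₆ = 0 := by
    show algebraMap ℚ K 0 = 0; simp
  rw [e1, e2, e3, e4, e6] at h1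
  linear_combination h1

omit [DecidableEq K] in
theorem finite_sub {A B : ℚ} {X : Set K} (hX : X.Finite)
    {H : Set ((EC A B).toAffine.baseChange K).Point}
    (h : ∀ x y (hn : ((EC A B).toAffine.baseChange K).Nonsingular x y),
      Affine.Point.some x y hn ∈ H → x ∈ X) : H.Finite := by
  have h2 : (insert ![1, 0] ((fun x : K => ![x, 1]) '' X)).Finite := (hX.image _).insert _
  refine (h2.biUnion fun v _ => finite_fiber ((EC A B).toAffine.baseChange K) v).subset
    fun P hP => ?_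
  simp only [Set.mem_iUnion, Set.mem_ofPred_eq, exists_prop, exists_eq_right']
  rcases P with _ | ⟨x, y, hn⟩
  · exact Or.inl rfl
  · refine Or.inr ⟨x, h x y hn hP, ?_⟩
    rw [Affine.Point.xRep_some]

/-- multiples of an element of a finite set closed under multiples. -/
theorem torsion_of_finite {G : Type*} [AddCommGroup G] {H : Set G} (hH : H.Finite) {P : G}
    (h : ∀ n : ℕ, n • P ∈ H) : IsOfFinAddOrder P := by
  rw [← finite_multiples]
  refine hH.subset ?_
  rintro _ ⟨n, rfl⟩
  exact h n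

/-- **quadratic fields**: solutions over `ℚ` of the equation and of the twisted equation. -/
theorem isOfFinAddOrder_quadratic (σ : K →ₐ[ℚ] K) (hσ : ∀ z, σ (σ z) = z)
    (hfix : ∀ z, σ z = z → ∃ q : ℚ, algebraMap ℚ K q = z) {s : K} (hs : σ s = -s)
    {D : ℚ} (hD : s ^ 2 = algebraMap ℚ K D) (hD0 : D ≠ 0) (A B : ℚ)
    (h1 : {p : ℚ × ℚ | p.2 ^ 2 = p.1 ^ 3 + A * p.1 ^ 2 + B * p.1}.Finite)
    (h2 : {p : ℚ × ℚ | p.2 ^ 2 = p.1 ^ 3 + A * D * p.1 ^ 2 + B * D ^ 2 * p.1}.Finite)
    (P : ((EC A B).toAffine.baseChange K).Point) : IsOfFinAddOrder P := by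
  have hs0 : s ≠ 0 := by
    rintro rfl
    apply hD0
    have : algebraMap ℚ K D = 0 := by rw [← hD]; ring
    simpa using this
  let S : ((EC A B).toAffine.baseChange K).Point →+ ((EC A B).toAffine.baseChange K).Point :=
    Affine.Point.map σ
  have hS : ∀ Q, S (S Q) = Q := by
    intro Q
    rcases Q with _ | ⟨x, y, h⟩
    · rfl
    · show Affine.Point.map σ (Affine.Point.map σ (Affine.Point.some x y h)) = _
      rw [Affine.Point.map_some, Affine.Point.map_some]
      simp only [hσ]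
  have hP : ({Q | S Q = Q} : Set ((EC A B).toAffine.baseChange K).Point).Finite := by
    refine finite_sub (h1.image fun p => algebraMap ℚ K p.1) ?_
    intro x y hn hQ
    have hQ' : Affine.Point.map σ (Affine.Point.some x y hn) = Affine.Point.some x y hn := hQ
    rw [Affine.Point.map_some] at hQ'
    simp only [Affine.Point.some.injEq] at hQ'
    obtain ⟨q, hq⟩ := hfix _ hQ'.1
    obtain ⟨r, hr⟩ := hfix _ hQ'.2
    refine ⟨(q, r), ?_, hq⟩
    have h3 := EC_eq hn
    rw [← hq, ← hr] at h3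
    show r ^ 2 = q ^ 3 + A * q ^ 2 + B * q
    exact_mod_cast h3
  have hM : ({Q | S Q = -Q} : Set ((EC A B).toAffine.baseChange K).Point).Finite := by
    refine finite_sub (h2.image fun p => algebraMap ℚ K (p.1 / D)) ?_
    intro x y hn hQ
    have hQ' : Affine.Point.map σ (Affine.Point.some x y hn) = -Affine.Point.some x y hn := hQ
    rw [Affine.Point.map_some, Affine.Point.neg_some] at hQ'
    simp only [Affine.Point.some.injEq] at hQ'
    obtain ⟨q, hq⟩ := hfix _ hQ'.1
    have hy : σ y = -y := by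
      rw [hQ'.2]
      unfold Affine.negY
      have e1 : ((EC A B).toAffine.baseChange K).a₁ = 0 := by
        show algebraMap ℚ K 0 = 0; simp
      have e3 : ((EC A B).toAffine.baseChange K).a₃ = 0 := by
        show algebraMap ℚ K 0 = 0; simp
      rw [e1, e3]; ring
    obtain ⟨r, hr⟩ := hfix (y / s) (by rw [map_div₀, hy, hs, neg_div_neg_eq])
    have hys : y = s * algebraMap ℚ K r := by rw [hr]; field_simp
    refine ⟨(D * q, D ^ 2 * r), ?_, ?_⟩
    · have h3 := EC_eq hn
      rw [← hq, hys, mul_pow, hD] at h3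
      have h4 : D * r ^ 2 = q ^ 3 + A * q ^ 2 + B * q := by exact_mod_cast h3
      show (D ^ 2 * r) ^ 2 = (D * q) ^ 3 + A * D * (D * q) ^ 2 + B * D ^ 2 * (D * q)
      linear_combination D ^ 3 * h4
    · show algebraMap ℚ K (D * q / D) = x
      rw [mul_div_cancel_left₀ _ hD0, hq]
  have t1 : IsOfFinAddOrder (P + S P) := by
    refine torsion_of_finite hP fun n => ?_
    show S (n • (P + S P)) = n • (P + S P)
    rw [map_nsmul, map_add, hS, add_comm (S P) P]
  have t2 : IsOfFinAddOrder (P - S P) := by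
    refine torsion_of_finite hM fun n => ?_
    show S (n • (P - S P)) = -(n • (P - S P))
    rw [map_nsmul, map_sub, hS, ← smul_neg, neg_sub]
  have t3 : IsOfFinAddOrder (2 • P) := by
    have : 2 • P = (P + S P) + (P - S P) := by rw [two_nsmul]; abel
    rw [this]
    exact t1.add t2
  rw [isOfFinAddOrder_iff_nsmul_eq_zero] at t3 ⊢
  obtain ⟨m, hm, hm0⟩ := t3
  refine ⟨m * 2, by positivity, ?_⟩
  rw [mul_smul]
  exact hm0

theorem isElliptic_EC {A B : ℚ} (hB : B ≠ 0) (hAB : A ^ 2 - 4 * B ≠ 0) : (EC A B).IsElliptic := by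
  refine ⟨isUnit_iff_ne_zero.2 ?_⟩
  have : (EC A B).Δ = 16 * B ^ 2 * (A ^ 2 - 4 * B) := by
    simp only [WeierstrassCurve.Δ, WeierstrassCurve.b₂, WeierstrassCurve.b₄, WeierstrassCurve.b₆,
      WeierstrassCurve.b₈]
    ring
  rw [this]
  exact mul_ne_zero (mul_ne_zero (by norm_num) (pow_ne_zero _ hB)) hAB

/-- **quadratic fields**: the group of points over `K` is finite as soon as the equation and its
twist have finitely many rational solutions. -/
theorem finite_quadratic (σ : K →ₐ[ℚ] K) (hσ : ∀ z, σ (σ z) = z)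
    (hfix : ∀ z, σ z = z → ∃ q : ℚ, algebraMap ℚ K q = z) {s : K} (hs : σ s = -s)
    {D : ℚ} (hD : s ^ 2 = algebraMap ℚ K D) (hD0 : D ≠ 0) (A B : ℚ)
    (hB : B ≠ 0) (hAB : A ^ 2 - 4 * B ≠ 0)
    (h1 : {p : ℚ × ℚ | p.2 ^ 2 = p.1 ^ 3 + A * p.1 ^ 2 + B * p.1}.Finite)
    (h2 : {p : ℚ × ℚ | p.2 ^ 2 = p.1 ^ 3 + A * D * p.1 ^ 2 + B * D ^ 2 * p.1}.Finite) :
    Finite ((EC A B).toAffine.baseChange K).Point := by
  have h3 : (EC A B).IsElliptic := isElliptic_EC hB hAB
  have h4 : ((EC A B).toAffine.baseChange K).IsElliptic :=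
    inferInstanceAs ((EC A B).map (algebraMap ℚ K)).IsElliptic
  exact finite_of_torsion ((EC A B).toAffine.baseChange K)
    (isOfFinAddOrder_quadratic σ hσ hfix hs hD hD0 A B h1 h2)

end Vale.Agent.P017.H766
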