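import Mathlib

/-! Parities of valuations on `y ^ 2 = x (x + c) (x + d)`; squares in `ℚ`. -/

namespace Vale.Agent.P017.H766

theorem isSquare_of_even {q : ℚ} (hq : 0 < q)
    (h : ∀ p : ℕ, p.Prime → Even (padicValRat p q)) : IsSquare q := by
  have hnum : 0 < q.num.natAbs := Int.natAbs_pos.2 (Rat.num_pos.2 hq).ne'
  have hN : 0 < q.num.natAbs * q.den := Nat.mul_pos hnum q.pos
  obtain ⟨a, b, hab, ha⟩ := Nat.sq_mul_squarefree (q.num.natAbs * q.den)
  have hb0 : b ≠ 0 := by
    rintro rfl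
    rw [← hab] at hN
    simp at hN
  have ha0 : a ≠ 0 := by
    rintro rfl
    rw [← hab] at hN
    simp at hN
  have ha1 : a = 1 := by
    by_contra hne
    obtain ⟨p, hp, hpa⟩ := Nat.exists_prime_and_dvd hne
    have : Fact p.Prime := ⟨hp⟩
    have h1 : padicValNat p (q.num.natAbs * q.den) = 2 * padicValNat p b + padicValNat p a := by
      rw [← hab, padicValNat.mul (pow_ne_zero 2 hb0) ha0, padicValNat.pow]
    have h2 : padicValNat p a = 1 := by
      have h3 : 1 ≤ padicValNat p a := one_le_padicValNat_of_dvd ha0 hpa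
      have h4 : ¬ 2 ≤ padicValNat p a := by
        intro h5
        have h6 : p ^ 2 ∣ a := (pow_dvd_pow p h5).trans pow_padicValNat_dvd
        rw [sq] at h6
        exact hp.one_lt.ne' (Nat.isUnit_iff.1 (ha p h6))
      omega
    have h3 := h p hp
    rw [padicValRat, padicValInt] at h3
    rw [padicValNat.mul hnum.ne' q.pos.ne'] at h1
    obtain ⟨k, hk⟩ := h3
    omega
  rw [ha1, mul_one] at hab
  refine ⟨b / q.den, ?_⟩
  have hden : (q.den : ℚ) ≠ 0 := by exact_mod_cast q.pos.ne'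
  have h1 : (b : ℚ) ^ 2 = (q.num.natAbs : ℚ) * q.den := by exact_mod_cast hab
  have h2 : (q.num.natAbs : ℚ) = q.num := by
    have h5 : ((q.num.natAbs : ℤ)) = q.num := Int.natAbs_of_nonneg (Rat.num_pos.2 hq).le
    calc (q.num.natAbs : ℚ) = (((q.num.natAbs : ℤ)) : ℚ) := (Int.cast_natCast _).symm
      _ = q.num := by rw [h5]
  have h3 : q * q.den = q.num := Rat.mul_den_eq_num q
  have h4 : (b : ℚ) / q.den * (b / q.den) = b ^ 2 / (q.den * q.den) := by ring
  rw [h4, h1, h2, ← h3]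
  field_simp

variable {p : ℕ} [Fact p.Prime]

theorem val_add_of_lt {x c : ℚ} (hx : x ≠ 0) (hc : c ≠ 0) (hxc : x + c ≠ 0)
    (h : padicValRat p x < padicValRat p c) : padicValRat p (x + c) = padicValRat p x :=
  padicValRat.add_eq_of_lt hxc hx hc h

theorem val_add_of_gt {x c : ℚ} (hx : x ≠ 0) (hc : c ≠ 0) (hxc : x + c ≠ 0)
    (h : padicValRat p c < padicValRat p x) : padicValRat p (x + c) = padicValRat p c := by
  rw [add_comm] at hxc ⊢
  exact padicValRat.add_eq_of_lt hxc hc hx h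

theorem val_sum {x c d y : ℚ} (hx : x ≠ 0) (hxc : x + c ≠ 0) (hxd : x + d ≠ 0)
    (h : y ^ 2 = x * (x + c) * (x + d)) :
    2 * padicValRat p y = padicValRat p x + padicValRat p (x + c) + padicValRat p (x + d) := by
  have hy : y ≠ 0 := by
    rintro rfl
    exact mul_ne_zero (mul_ne_zero hx hxc) hxd (by rw [← h]; ring)
  rw [← padicValRat.mul hx hxc, ← padicValRat.mul (mul_ne_zero hx hxc) hxd, ← h,
    padicValRat.pow]
  norm_num

theorem even_of_lt {x c d y : ℚ} (hx : x ≠ 0) (hc : c ≠ 0) (hd : d ≠ 0) (hxc : x + c ≠ 0)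
    (hxd : x + d ≠ 0) (h : y ^ 2 = x * (x + c) * (x + d))
    (h1 : padicValRat p x < padicValRat p c) (h2 : padicValRat p x < padicValRat p d) :
    Even (padicValRat p x) := by
  have h3 := val_sum (p := p) hx hxc hxd h
  rw [val_add_of_lt hx hc hxc h1, val_add_of_lt hx hd hxd h2] at h3
  rw [Int.even_iff]
  omega

theorem even_of_gt {x c d y : ℚ} (hx : x ≠ 0) (hc : c ≠ 0) (hd : d ≠ 0) (hxc : x + c ≠ 0)
    (hxd : x + d ≠ 0) (h : y ^ 2 = x * (x + c) * (x + d))
    (h1 : padicValRat p c < padicValRat p x) (h2 : padicValRat p d < padicValRat p x) :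
    Even (padicValRat p x + padicValRat p c + padicValRat p d) := by
  have h3 := val_sum (p := p) hx hxc hxd h
  rw [val_add_of_gt hx hc hxc h1, val_add_of_gt hx hd hxd h2] at h3
  rw [Int.even_iff]
  omega

/-- intermediate range. -/
theorem even_of_between {x c d y : ℚ} (hx : x ≠ 0) (hc : c ≠ 0) (hd : d ≠ 0) (hxc : x + c ≠ 0)
    (hxd : x + d ≠ 0) (h : y ^ 2 = x * (x + c) * (x + d))
    (h1 : padicValRat p x < padicValRat p c) (h2 : padicValRat p d < padicValRat p x) :
    Even (padicValRat p d) := by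
  have h3 := val_sum (p := p) hx hxc hxd h
  rw [val_add_of_lt hx hc hxc h1, val_add_of_gt hx hd hxd h2] at h3
  rw [Int.even_iff]
  omega

/-- a rational number of valuation `k ≥ 0`. -/
theorem exists_int_of_val {x : ℚ} (hx : x ≠ 0) {k : ℕ} (h : padicValRat p x = k) :
    ∃ m n : ℤ, ¬ (p : ℤ) ∣ m ∧ ¬ (p : ℤ) ∣ n ∧ n ≠ 0 ∧ x = p ^ k * m / n := by
  have hp : p.Prime := Fact.out
  have hnum : x.num ≠ 0 := Rat.num_ne_zero.2 hx
  have h0 : (padicValInt p x.num : ℤ) - padicValNat p x.den = k := h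
  have hden : ¬ p ∣ x.den := by
    intro hd
    have h1 : 1 ≤ padicValNat p x.den := one_le_padicValNat_of_dvd x.pos.ne' hd
    have h2 : ¬ p ∣ x.num.natAbs := fun h3 =>
      hp.one_lt.ne' (Nat.dvd_one.1 (x.reduced ▸ Nat.dvd_gcd h3 hd))
    have h3 : padicValInt p x.num = 0 := padicValNat.eq_zero_of_not_dvd h2
    omega
  have h1 : padicValNat p x.den = 0 := padicValNat.eq_zero_of_not_dvd hden
  have h2 : padicValInt p x.num = k := by omega
  have h3 : (p : ℤ) ^ k ∣ x.num := by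
    rw [← h2]; exact padicValInt_dvd x.num
  obtain ⟨m, hm⟩ := h3
  refine ⟨m, x.den, ?_, ?_, by exact_mod_cast x.pos.ne', ?_⟩
  · rintro ⟨t, ht⟩
    have h4 : (p : ℤ) ^ (k + 1) ∣ x.num := ⟨t, by rw [hm, ht]; ring⟩
    have h5 := (padicValInt_dvd_iff (p := p) (k + 1) x.num).1 h4
    rcases h5 with h5 | h5
    · exact hnum h5
    · omega
  · intro hd
    exact hden (by exact_mod_cast hd)
  · have hd : (x.den : ℚ) ≠ 0 := by exact_mod_cast x.pos.ne'
    have h4 : x * x.den = x.num := Rat.mul_den_eq_num x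
    have h5 : (x.num : ℚ) = p ^ k * m := by rw [hm]; push_cast; ring
    rw [← h5, ← h4]
    field_simp
    norm_cast

end Vale.Agent.P017.H766
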